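import Vale.Agent.P088.R2.H354.Far

/-!
# The bound by the far layer: the theorem
-/

open MeasureTheory Set
open scoped ContDiff Matrix Topology

noncomputable section

namespace Vale.Agent.P088.HY.T3

open Vale.Agent.P088.LR G

variable {n : ℕ} {s₁ s₂ : MF n} {D Gm O P Fa Fb : Set (V n)} {χ η ψ : V n → ℝ} {r C : ℝ}

theorem int_three {X : Set (V n)} {F₁ F₂ F₃ : V n → ℝ} (h1 : IntegrableOn F₁ X)
    (h2 : IntegrableOn F₂ X) (h3 : IntegrableOn F₃ X) :
    ∫ x in X, (F₁ x - F₂ x + F₃ x) = (∫ x in X, F₁ x) - (∫ x in X, F₂ x) + ∫ x in X, F₃ x := by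
  have h12 : IntegrableOn (fun x => F₁ x - F₂ x) X := h1.sub h2
  rw [integral_add h12 h3, integral_sub h1 h2]

/-- **The bound by the far layer.** If finite families of solutions are transferred with linear
bounds (`Stp`), the form of a doubly harmonic `k` is bounded by the values of `k` at the pairs of
points one of which is in the far layer. -/
theorem trf (hG : Geo s₁ s₂ D Gm O P Fa Fb χ η ψ r C) (h3 : Stp D Gm s₁ s₂) :
    ∃ B : ℝ, 0 ≤ B ∧ ∀ (k : VV n → ℝ) (S : ℝ), 0 ≤ S →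
      ContDiffOn ℝ ∞ k (O ×ˢ O) → (∀ z ∈ O ×ˢ O, Lx s₁ k z = 0) →
      (∀ z ∈ O ×ˢ O, Ly s₂ k z = 0) → (∀ x ∈ P, ∀ y ∈ Fb, |k (x, y)| ≤ S ∧ |k (y, x)| ≤ S) →
      |∫ x, χ x * ∑ i, ∑ j, (s₂ x i j - s₁ x i j) * dx i (dy j k) (x, x)| ≤ B * S := by
  obtain ⟨c2, c3, hc2, hc3, hex⟩ := ex_tra hG h3
  obtain ⟨M, hM, hcoef⟩ := coef_bd hG.sm₁ hG.sm₂ hG.χs hG.χc
  have hO := hG.oO
  have hC := hG.C0
  have hX1 := X1_meas (χ := χ) hG.oG
  have hX2 := X2_meas (χ := χ) hG.oG hG.χs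
  have hX1f := X1_fin (Gm := Gm) hG.χc
  have hX2f : volume (X2 χ Gm) < ⊤ := (measure_mono X2_sub).trans_lt hX1f
  have hDG : MeasurableSet (D \ Gm) := hG.oD.measurableSet.diff hG.oG.measurableSet
  have hvb : 0 ≤ vb n r := vb_nonneg r
  obtain ⟨N0, hN0⟩ : ∃ N0, N0 = n * (n * (M * (C * (C * vb n r)))) * volume.real (X1 χ Gm) :=
    ⟨_, rfl⟩
  obtain ⟨N1, hN1⟩ : ∃ N1, N1 = n * (n * (M * ((1 + volume.real (X1 χ Gm)) *
    (C * (c2 * √(volume.real P)) + 1)))) := ⟨_, rfl⟩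
  obtain ⟨N2, hN2⟩ : ∃ N2, N2 = n * (n * (M * ((1 + volume.real (X2 χ Gm)) *
    (C * (c2 * √(volume.real Fb)) + 1)))) := ⟨_, rfl⟩
  obtain ⟨N3, hN3⟩ : ∃ N3, N3 = n * (n * (M * ((1 + volume.real (X2 χ Gm)) *
    (C * ((2 * (c2 + (n + 1) * c3)) * √(volume.real Fb)) + 1)))) := ⟨_, rfl⟩
  have hN0' : 0 ≤ N0 := by rw [hN0]; positivity
  have hN1' : 0 ≤ N1 := by rw [hN1]; positivity
  have hN2' : 0 ≤ N2 := by rw [hN2]; positivity
  have hN3' : 0 ≤ N3 := by rw [hN3]; positivity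
  obtain ⟨N, hN⟩ : ∃ N, N = N0 + N1 + 2 * N2 + N3 := ⟨_, rfl⟩
  have hN' : 0 ≤ N := by rw [hN]; positivity
  refine ⟨N, hN', fun k S hS hk h1 h2 hfar => ?_⟩
  refine le_of_forall_pos_le_add fun ε hε => ?_
  obtain ⟨δ, hδ, hδε⟩ : ∃ δ : ℝ, 0 < δ ∧ N * δ ≤ ε := by
    refine ⟨ε / (N + 1), by positivity, ?_⟩
    rw [mul_div_assoc', div_le_iff₀ (by positivity)]
    nlinarith
  obtain ⟨d, e, g, R, hes, hgs, hel, hgl, hRs, hRe, hR1, hR2, hRb⟩ :=
    approx hG.oO hG.cP hG.PO hk h1 h2 hδ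
  have hA : Apr s₁ s₂ O P k R δ e g := ⟨hk, h1, hRs, hR1, hR2, hes, hgs, hel, hgl, hRe, hRb, hδ⟩
  obtain ⟨w, dv, hT⟩ := hex hA hS hfar
  obtain ⟨T, hTdef⟩ : ∃ T, T = S + δ := ⟨_, rfl⟩
  rw [← hTdef] at hT
  have hT0 : 0 < T := by rw [hTdef]; positivity
  have hc1 : ∀ j, ContDiff ℝ ∞ (pd j χ) := fun j =>
    (hG.χs.fderiv_right (by simp)).clm_apply contDiff_const
  have hcs1 : ∀ j, HasCompactSupport (pd j χ) := fun j => hG.χc.fderiv_apply ℝ (Pi.single j 1)
  have hct1 : ∀ j, tsupport (pd j χ) ⊆ O := fun j =>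
    (tsupport_fderiv_apply_subset ℝ _).trans hG.χO
  -- restriction to `X1`
  have hI : ∫ x, χ x * ∑ i, ∑ j, (s₂ x i j - s₁ x i j) * dx i (dy j k) (x, x) =
      ∫ x in X1 χ Gm, χ x * ∑ i, ∑ j, (s₂ x i j - s₁ x i j) * dx i (dy j k) (x, x) := by
    refine (setIntegral_eq_integral_of_forall_compl_eq_zero fun x hx => ?_).symm
    by_cases h : x ∈ tsupport χ
    · have hxG : x ∈ Gm ∩ D := ⟨by by_contra h'; exact hx ⟨h, h'⟩, hG.OD (hG.χO h)⟩
      rw [hG.eqG x hxG]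
      simp
    · rw [image_eq_zero_of_notMem_tsupport h, zero_mul]
  -- the three parts
  have iR : ∀ i j, IntegrableOn (fun x => (χ x * (s₂ x i j - s₁ x i j)) * dx i (dy j R) (x, x))
      (X1 χ Gm) := by
    intro i j
    have a1 : ContDiff ℝ ∞ fun x => χ x * ((s₂ x i j - s₁ x i j) * dx i (dy j R) (x, x)) :=
      cut_mul1 hO hG.χs hG.χO (((hG.sm₂ i j).contDiffOn.sub (hG.sm₁ i j).contDiffOn).mul
        (cont_diagO hO (cd_dx hO (cd_dy hO hRs j) i)))
    exact ((a1.continuous.integrable_of_hasCompactSupport hG.χc.mul_right).integrableOn).congr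
      (Filter.Eventually.of_forall fun x => by
        show χ x * ((s₂ x i j - s₁ x i j) * dx i (dy j R) (x, x)) = _
        ring)
  have hσ : ∀ i j, ContDiff ℝ ∞ fun x => s₂ x i j - s₁ x i j := fun i j =>
    (hG.sm₂ i j).sub (hG.sm₁ i j)
  have hσ' : ∀ i j, ContDiff ℝ ∞ fun x => s₁ x i j - s₂ x i j := fun i j =>
    (hG.sm₁ i j).sub (hG.sm₂ i j)
  have mE : ∀ q i, MemLp (fun x => dv q i x - pd i (cf η e q) x) 2
      (volume.restrict (X1 χ Gm)) := fun q i =>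
    ((hT.dl q i).mono_measure (Measure.restrict_mono (X1_D hG) le_rfl)).sub
      (cf_mem hG hA _ q i)
  have iE : ∀ i j q, IntegrableOn (fun x => (χ x * (s₂ x i j - s₁ x i j)) *
      ((dv q i x - pd i (cf η e q) x) * jd (some j) (g q) x)) (X1 χ Gm) := fun i j q =>
    hint_mk hO hG.χs hG.χc hG.χO (hσ i j) (mE q i) (hgs q) (some j)
  have iD : ∀ i j q, IntegrableOn (fun x => (χ x * (s₂ x i j - s₁ x i j)) *
      (dv q i x * jd (some j) (g q) x)) (D \ Gm) := fun i j q =>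
    hint_mk hO hG.χs hG.χc hG.χO (hσ i j) (hT.dl q i) (hgs q) (some j)
  have iD1 : ∀ i j q, IntegrableOn (fun x => (χ x * (s₂ x i j - s₁ x i j)) *
      (dv q i x * jd (some j) (g q) x)) (X1 χ Gm) := fun i j q => (iD i j q).mono_set (X1_D hG)
  have hpe : ∀ x ∈ X1 χ Gm, ∀ q i, pd i (cf η e q) x = pd i (e q) x := by
    intro x hx q i
    have h := jd_cg Metric.isOpen_ball (f := cf η e q) (g := e q) (fun y hy => by
      unfold cf
      rw [hG.q₂ x hx y hy, one_mul]) (Metric.mem_ball_self hG.r0) (some i)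
    exact h
  have hdec : ∀ x ∈ X1 χ Gm, χ x * ∑ i, ∑ j, (s₂ x i j - s₁ x i j) * dx i (dy j k) (x, x) =
      (∑ i, ∑ j, (χ x * (s₂ x i j - s₁ x i j)) * dx i (dy j R) (x, x)) -
      (∑ q, ∑ i, ∑ j, (χ x * (s₂ x i j - s₁ x i j)) *
        ((dv q i x - pd i (cf η e q) x) * jd (some j) (g q) x)) +
      ∑ q, ∑ i, ∑ j, (χ x * (s₂ x i j - s₁ x i j)) * (dv q i x * jd (some j) (g q) x) := by
    intro x hx
    have hxO : x ∈ O := hG.χO hx.1
    have sw : ∀ F : Fin d → Fin n → Fin n → ℝ, ∑ q, ∑ i, ∑ j, F q i j = ∑ i, ∑ j, ∑ q, F q i j := by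
      intro F
      rw [Finset.sum_comm]
      exact Finset.sum_congr rfl fun i _ => Finset.sum_comm
    rw [sw, sw, Finset.mul_sum, ← Finset.sum_sub_distrib, ← Finset.sum_add_distrib]
    refine Finset.sum_congr rfl fun i _ => ?_
    rw [Finset.mul_sum, ← Finset.sum_sub_distrib, ← Finset.sum_add_distrib]
    refine Finset.sum_congr rfl fun j _ => ?_
    rw [split hO hA hxO i j, ← Finset.mul_sum, ← Finset.mul_sum]
    simp only [jd_some, hpe x hx]
    have e1 : ∑ q, (dv q i x - pd i (e q) x) * pd j (g q) x =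
        (∑ q, dv q i x * pd j (g q) x) - ∑ q, pd i (e q) x * pd j (g q) x := by
      rw [← Finset.sum_sub_distrib]
      exact Finset.sum_congr rfl fun q _ => by ring
    rw [e1]
    ring
  have n1 := integrable_finsetSum Finset.univ fun i _ =>
    integrable_finsetSum Finset.univ fun j _ => iR i j
  have n2 : ∀ q, IntegrableOn (fun x => ∑ i, ∑ j, (χ x * (s₂ x i j - s₁ x i j)) *
      ((dv q i x - pd i (cf η e q) x) * jd (some j) (g q) x)) (X1 χ Gm) := fun q =>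
    integrable_finsetSum Finset.univ fun i _ => integrable_finsetSum Finset.univ fun j _ => iE i j q
  have n3 : ∀ q, IntegrableOn (fun x => ∑ i, ∑ j, (χ x * (s₂ x i j - s₁ x i j)) *
      (dv q i x * jd (some j) (g q) x)) (X1 χ Gm) := fun q =>
    integrable_finsetSum Finset.univ fun i _ =>
      integrable_finsetSum Finset.univ fun j _ => iD1 i j q
  have hsum : ∫ x in X1 χ Gm, χ x * ∑ i, ∑ j, (s₂ x i j - s₁ x i j) * dx i (dy j k) (x, x) =
      (∫ x in X1 χ Gm, ∑ i, ∑ j, (χ x * (s₂ x i j - s₁ x i j)) * dx i (dy j R) (x, x)) -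
      (∑ q, ∫ x in X1 χ Gm, ∑ i, ∑ j, (χ x * (s₂ x i j - s₁ x i j)) *
        ((dv q i x - pd i (cf η e q) x) * jd (some j) (g q) x)) +
      ∑ q, ∫ x in X1 χ Gm, ∑ i, ∑ j, (χ x * (s₂ x i j - s₁ x i j)) *
        (dv q i x * jd (some j) (g q) x) := by
    rw [setIntegral_congr_fun hX1 hdec, ← integral_finsetSum _ fun q _ => n2 q,
      ← integral_finsetSum _ fun q _ => n3 q]
    have n2' := integrable_finsetSum Finset.univ fun q _ => n2 q
    have n3' := integrable_finsetSum Finset.univ fun q _ => n3 q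
    exact int_three n1 n2' n3'
  -- the bound of the first part
  have t0 := termR hG hA hM hcoef
  rw [← hN0] at t0
  -- the second part
  have t1 := tot_bd hO hG.ie₂ hC hgs hgl hG.r0 hX1 hX1f hX1 (subset_refl _) hG.cP hG.PO
    (fun x hx => hG.q₁ x hx) (c := fun i j x => χ x * (s₂ x i j - s₁ x i j))
    (a := fun q i x => dv q i x - pd i (cf η e q) x) (o := fun _ j => some j) mE
    (fun x hx => absurd hx.1 hx.2) iE hM (fun i j x _ => (hcoef x i j i).1) hc2 hT0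
    (fun i y hy => bE hG hA hT i hy)
  -- the third part
  have hJ : ∀ q, ∫ x in X1 χ Gm, ∑ i, ∑ j, (χ x * (s₂ x i j - s₁ x i j)) *
      (dv q i x * jd (some j) (g q) x) =
      (∫ x in D \ Gm, ∑ i, ∑ j, (pd j χ x * (s₁ x i j - s₂ x i j)) * (dv q i x * g q x)) +
      (∫ x in D, ∑ i, ∑ j, (pd i χ x * s₂ x i j) * (w q x * pd j (g q) x)) -
      ∫ x in D, ∑ i, ∑ j, (pd j χ x * s₂ x i j) * (pd i (w q) x * g q x) := by
    intro q
    rw [← Jid hG.oD hO hG.OD hG.sm₁ hG.sm₂ hG.sy₂ hG.dv₂ hG.χs hG.χc hG.χO (hT.ws q)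
      (hT.wl1 q) (hT.dl q) (hgs q) (hgl q) (hT.wk q)]
    refine (setIntegral_eq_of_subset_of_forall_sdiff_eq_zero hDG (X1_D hG) fun x hx => ?_).symm
    have hχ0 : χ x = 0 := by
      refine image_eq_zero_of_notMem_tsupport fun h => hx.2 ⟨h, hx.1.2⟩
    exact Finset.sum_eq_zero fun i _ => Finset.sum_eq_zero fun j _ => by
      rw [hχ0]; ring
  have hX2D : X2 χ Gm ⊆ D \ Gm := X2_sub.trans (X1_D hG)
  have ta := tot_bd hO hG.ie₂ hC hgs hgl hG.r0 hX2 hX2f hDG hX2D hG.cF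
    (hG.fbP.trans hG.PO) (X2_ball hG) (c := fun i j x => pd j χ x * (s₁ x i j - s₂ x i j))
    (a := dv) (o := fun _ _ => none)
    (fun q i => (hT.dl q i).mono_measure (Measure.restrict_mono hX2D le_rfl))
    (fun x hx i j q => by
      rw [X2_off (X' := D \ Gm) (fun x hx => hx.2) hx j]; ring)
    (fun i j q => hint_mk hO (hc1 j) (hcs1 j) (hct1 j) (hσ' i j) (hT.dl q i) (hgs q) none)
    hM (fun i j x _ => (hcoef x i j j).2.1) (c' := 2 * (c2 + (n + 1) * c3)) (by positivity) hT0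
    (fun i y hy => by
      have h := bV hG hA hT (by positivity) (by positivity) i hy
      refine h.trans (le_of_eq ?_)
      ring)
  have w0 : ∀ x ∈ D \ X2 χ Gm, (∀ j, pd j χ x = 0) ∨
      (∀ q, w q x = 0 ∧ ∀ i, pd i (w q) x = 0) := by
    intro x hx
    by_cases hxG : x ∈ Gm
    · refine Or.inr fun q => ⟨hT.wG q x ⟨hxG, hx.1⟩, fun i => ?_⟩
      have h := jd_cg (hG.oG.inter hG.oD) (g := fun _ => 0) (hT.wG q) ⟨hxG, hx.1⟩ (some i)
      simp only [jd_some] at h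
      rw [h]
      unfold pd; simp
    · exact Or.inl fun j => X2_off (X' := D \ Gm) (fun x hx => hx.2) ⟨⟨hx.1, hxG⟩, hx.2⟩ j
  have tb := tot_bd hO hG.ie₂ hC hgs hgl hG.r0 hX2 hX2f hG.oD.measurableSet
    (hX2D.trans sdiff_subset) hG.cF (hG.fbP.trans hG.PO) (X2_ball hG)
    (c := fun i j x => pd i χ x * s₂ x i j)
    (a := fun q _ => w q) (o := fun _ j => some j)
    (fun q i => (hT.wl q).mono_measure (Measure.restrict_mono (hX2D.trans sdiff_subset) le_rfl))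
    (fun x hx i j q => by
      rcases w0 x hx with h | h
      · simp only [h i]; ring
      · simp only [(h q).1]; ring)
    (fun i j q => hint_mk hO (hc1 i) (hcs1 i) (hct1 i) (hG.sm₂ i j) (hT.wl q) (hgs q) (some j))
    hM (fun i j x _ => (hcoef x i j i).2.2) hc2 hT0 (fun i y hy => (bW hG hT hy).1)
  have tc := tot_bd hO hG.ie₂ hC hgs hgl hG.r0 hX2 hX2f hG.oD.measurableSet
    (hX2D.trans sdiff_subset) hG.cF (hG.fbP.trans hG.PO) (X2_ball hG)
    (c := fun i j x => pd j χ x * s₂ x i j)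
    (a := fun q i => pd i (w q)) (o := fun _ _ => none)
    (fun q i => (hT.wl1 q i).mono_measure
      (Measure.restrict_mono (hX2D.trans sdiff_subset) le_rfl))
    (fun x hx i j q => by
      rcases w0 x hx with h | h
      · simp only [h j]; ring
      · simp only [(h q).2 i]; ring)
    (fun i j q => hint_mk hO (hc1 j) (hcs1 j) (hct1 j) (hG.sm₂ i j) (hT.wl1 q i) (hgs q) none)
    hM (fun i j x _ => (hcoef x i j j).2.2) hc2 hT0 (fun i y hy => (bW hG hT hy).2 i)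
  simp only [jd_some, jd_none] at t1 ta tb tc
  rw [hI, hsum, Finset.sum_congr rfl fun q _ => hJ q, Finset.sum_sub_distrib,
    Finset.sum_add_distrib]
  simp only [jd_some]
  have f1 : n * (n * (M * ((1 + volume.real (X1 χ Gm)) *
      ((C * (c2 * √(volume.real P)) + 1) * T)))) = N1 * T := by rw [hN1]; ring
  have f2 : n * (n * (M * ((1 + volume.real (X2 χ Gm)) *
      ((C * (c2 * √(volume.real Fb)) + 1) * T)))) = N2 * T := by rw [hN2]; ring
  have f3 : n * (n * (M * ((1 + volume.real (X2 χ Gm)) *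
      ((C * ((2 * (c2 + (n + 1) * c3)) * √(volume.real Fb)) + 1) * T)))) = N3 * T := by
    rw [hN3]; ring
  rw [f1] at t1
  rw [f3] at ta
  rw [f2] at tb tc
  have hδT : N0 * δ ≤ N0 * T := mul_le_mul_of_nonneg_left (by rw [hTdef]; linarith) hN0'
  have hfin : N * T = N * S + N * δ := by rw [hTdef]; ring
  have hfin2 : N * T = N0 * T + N1 * T + 2 * (N2 * T) + N3 * T := by rw [hN]; ring
  have q0 := abs_le.1 t0
  have q1 := abs_le.1 t1
  have qa := abs_le.1 ta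
  have qb := abs_le.1 tb
  have qc := abs_le.1 tc
  rw [abs_le]
  constructor
  · linarith [q0.1, q1.2, qa.1, qb.1, qc.2]
  · linarith [q0.2, q1.1, qa.2, qb.2, qc.1]

end Vale.Agent.P088.HY.T3
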