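import Vale.Agent.P088.R2.H354.Ine
import Vale.Agent.P088.R2.H354.Trf3
import Vale.Agent.P088.R2.H354.Spec3n

/-!
# The bound by the far layer in the normalised situation
-/

open MeasureTheory Set
open scoped ContDiff Matrix Topology

noncomputable section

namespace Vale.Agent.P088.HY.T3

open Vale.Agent.P088.LR G

variable {n : ℕ}

/-- The closed Euclidean annulus. -/
def Ac (n : ℕ) (a b : ℝ) : Set (V n) := {x | a ≤ √(sq x) ∧ √(sq x) ≤ b}

/-- The open Euclidean annulus. -/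
def Ao (n : ℕ) (a b : ℝ) : Set (V n) := {x | a < √(sq x) ∧ √(sq x) < b}

theorem rt_sub (x y : V n) : √(sq x) ≤ √(sq y) + √(sq (x - y)) := by
  have h := norm_le_norm_add_norm_sub' (WithLp.toLp 2 x : EuclideanSpace ℝ (Fin n))
    (WithLp.toLp 2 y)
  rw [← WithLp.toLp_sub, EuclideanSpace.norm_eq, EuclideanSpace.norm_eq,
    EuclideanSpace.norm_eq] at h
  simpa [sq, Real.norm_eq_abs] using h

theorem sq_neg' (x : V n) : sq (-x) = sq x := by unfold sq; simp

theorem rt_ball {p x : V n} {r : ℝ} (hr : 0 ≤ r) (hx : x ∈ Metric.ball p r) :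
    √(sq p) - (n + 1) * r ≤ √(sq x) ∧ √(sq x) ≤ √(sq p) + (n + 1) * r := by
  have h1 : ∀ j, (x j - p j) ^ 2 ≤ r ^ 2 := by
    intro j
    have h2 : |x j - p j| ≤ r := by
      have h3 := dist_le_pi_dist x p j
      rw [Real.dist_eq] at h3
      exact h3.trans (Metric.mem_ball.1 hx).le
    exact sq_le_sq' (by linarith [abs_le.1 h2 |>.1]) (abs_le.1 h2).2
  have h2 : sq (x - p) ≤ ((n + 1) * r) ^ 2 := by
    unfold sq
    calc ∑ j, (x - p) j ^ 2 ≤ ∑ _j : Fin n, r ^ 2 := Finset.sum_le_sum fun j _ => h1 j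
      _ = n * r ^ 2 := by
          rw [Finset.sum_const, Finset.card_univ, Fintype.card_fin, nsmul_eq_mul]
      _ ≤ ((n + 1) * r) ^ 2 := by
          have h3 : (0 : ℝ) ≤ n := by positivity
          nlinarith [sq_nonneg r, mul_nonneg h3 (sq_nonneg r), mul_nonneg (mul_nonneg h3 h3)
            (sq_nonneg r)]
  have h3 : √(sq (x - p)) ≤ (n + 1) * r := Real.sqrt_le_iff.2 ⟨by positivity, h2⟩
  have h4 := rt_sub x p
  have h5 := rt_sub p x
  have h6 : sq (p - x) = sq (x - p) := by rw [← sq_neg' (p - x), neg_sub]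
  rw [h6] at h5
  exact ⟨by linarith, by linarith⟩

theorem cont_rt : Continuous fun x : V n => √(sq x) := continuous_sq.sqrt

theorem isClosed_Ac (a b : ℝ) : IsClosed (Ac n a b) :=
  (isClosed_le continuous_const cont_rt).inter (isClosed_le cont_rt continuous_const)

theorem isOpen_Ao (a b : ℝ) : IsOpen (Ao n a b) :=
  (isOpen_lt continuous_const cont_rt).inter (isOpen_lt cont_rt continuous_const)

theorem isCompact_Ac (a b : ℝ) : IsCompact (Ac n a b) := by
  refine (isCompact_closedBall (0 : V n) b).of_isClosed_subset (isClosed_Ac a b) fun x hx => ?_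
  have h0 : 0 ≤ b := (Real.sqrt_nonneg _).trans hx.2
  rw [mem_closedBall_zero_iff, pi_norm_le_iff_of_nonneg h0]
  intro i
  have h1 : x i ^ 2 ≤ sq x := Finset.single_le_sum (f := fun j => x j ^ 2)
    (fun j _ => sq_nonneg _) (Finset.mem_univ i)
  rw [Real.norm_eq_abs, ← Real.sqrt_sq_eq_abs]
  exact (Real.sqrt_le_sqrt h1).trans hx.2

theorem mem_Eb0 {x : V n} {R : ℝ} (hR : 0 < R) : x ∈ Eb 0 R ↔ √(sq x) < R := by
  show sq (x - 0) < R ^ 2 ↔ _
  rw [sub_zero, Real.sqrt_lt' hR]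

theorem isOpen_Eb (a : V n) (R : ℝ) : IsOpen (Eb a R) :=
  isOpen_lt (continuous_sq.comp (continuous_id.sub continuous_const)) continuous_const

theorem pd_zero_of {f : V n → ℝ} {c : ℝ} {U : Set (V n)} (hU : IsOpen U)
    (h : ∀ x ∈ U, f x = c) {x : V n} (hx : x ∈ U) (i : Fin n) : pd i f x = 0 := by
  have h1 : f =ᶠ[𝓝 x] fun _ => c := Filter.eventually_of_mem (hU.mem_nhds hx) h
  unfold pd
  rw [h1.fderiv_eq]
  simp

/-- **The bound by the far layer, normalised.** -/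
theorem s11 (hI : RowINV) (n : ℕ) : ∃ (K : ℕ) (ε : ℝ), 0 < ε ∧
    ∀ (s₁ s₂ : MF n) (G : Set (V n)), Nrm K ε s₁ s₂ G → Stp (Eb 0 24) G s₁ s₂ →
    ∀ (O : Set (V n)) (χ : V n → ℝ), IsOpen O → O ⊆ Eb 0 24 → Ac n (991 / 1000) 20 ⊆ O →
    ContDiff ℝ ∞ χ → (∀ x ∉ Ac n (998 / 1000) 12, χ x = 0) →
    (∀ x ∈ Ao n (999 / 1000) 11, χ x = 1) →
    ∃ B : ℝ, 0 ≤ B ∧ ∀ (k : VV n → ℝ) (S : ℝ), 0 ≤ S →
      ContDiffOn ℝ ∞ k (O ×ˢ O) → (∀ z ∈ O ×ˢ O, Lx s₁ k z = 0) →
      (∀ z ∈ O ×ˢ O, Ly s₂ k z = 0) →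
      (∀ x ∈ Ac n (991 / 1000) 20, ∀ y ∈ Ac n 10 20, |k (x, y)| ≤ S ∧ |k (y, x)| ≤ S) →
      |∫ x, χ x * ∑ i, ∑ j, (s₂ x i j - s₁ x i j) * dx i (dy j k) (x, x)| ≤ B * S := by
  obtain ⟨K, C, ε, hC, hε, hie⟩ := intE_of hI n
  refine ⟨K, ε, hε, ?_⟩
  intro s₁ s₂ G hN h3 O χ hO hOD hPO hχs hχ0 hχ1
  obtain ⟨t, ht⟩ : ∃ t : ℝ, t = 1 / (1000 * (n + 1)) := ⟨_, rfl⟩
  have hn : (0 : ℝ) ≤ n := by positivity
  have ht0 : 0 < t := by rw [ht]; positivity
  have ht1 : t ≤ 1 := by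
    rw [ht, div_le_one (by positivity)]
    nlinarith
  have hnt : (n + 1) * (2 * t) = 2 / 1000 := by
    rw [ht]
    field_simp
  have hb : ∀ {p x : V n}, x ∈ Metric.ball p (2 * t) →
      √(sq p) - 2 / 1000 ≤ √(sq x) ∧ √(sq x) ≤ √(sq p) + 2 / 1000 := by
    intro p x hx
    have h := rt_ball (by positivity) hx
    rw [hnt] at h
    exact h
  -- the cut-offs
  obtain ⟨η, hηs, hηc, hηO, hη1⟩ := exists_cut (n := n) (isOpen_Ao (995 / 1000) 19)
    (isCompact_Ac (997 / 1000) 18) fun x hx =>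
      ⟨lt_of_lt_of_le (by norm_num) hx.1, lt_of_le_of_lt hx.2 (by norm_num)⟩
  obtain ⟨ψ, hψs, hψc, hψO, hψ1⟩ := exists_cut (n := n) (isOpen_Ao (-1) (999 / 1000))
    (isCompact_Ac 0 (998 / 1000)) fun x hx =>
      ⟨lt_of_lt_of_le (by norm_num) hx.1, lt_of_le_of_lt hx.2 (by norm_num)⟩
  have hχt : tsupport χ ⊆ Ac n (998 / 1000) 12 := by
    refine closure_minimal (fun x hx => ?_) (isClosed_Ac _ _)
    by_contra h
    exact hx (hχ0 x h)
  have hG1 : ∀ x : V n, √(sq x) < 1 → x ∈ G := fun x hx => hN.b1 ((mem_Eb0 one_pos).2 hx)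
  have hoff : ∀ p ∈ tsupport χ \ G, 1 ≤ √(sq p) ∧ √(sq p) ≤ 12 := fun p hp =>
    ⟨not_lt.1 fun h => hp.2 (hG1 p h), (hχt hp.1).2⟩
  have hgeo : Geo s₁ s₂ (Eb 0 24) G O (Ac n (991 / 1000) 20) (Ac n 18 19) (Ac n 10 20) χ η ψ
      (2 * t) (C * √((t ^ n)⁻¹) * t⁻¹) :=
    { oD := isOpen_Eb 0 24
      oO := hO
      OD := hOD
      cP := isCompact_Ac _ _
      PO := hPO
      oG := hN.oG
      cF := isCompact_Ac _ _
      sm₁ := hN.sm₁
      sm₂ := hN.sm₂
      sy₂ := hN.sy₂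
      dv₂ := fun x hx => hN.dv₂ x (hOD hx)
      eqG := hN.eq
      ie₁ := hie s₁ hN.sm₁ hN.cl₁ t ht0 ht1 O
      ie₂ := hie s₂ hN.sm₂ hN.cl₂ t ht0 ht1 O
      C0 := by positivity
      r0 := by positivity
      χs := hχs
      χc := HasCompactSupport.of_support_subset_isCompact (isCompact_Ac (998 / 1000) 12)
        ((subset_tsupport χ).trans hχt)
      χO := fun x hx =>
        hPO ⟨le_trans (by norm_num) (hχt hx).1, le_trans (hχt hx).2 (by norm_num)⟩
      ηs := hηs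
      ηc := hηc
      ηP := hηO.trans fun x hx =>
        ⟨le_trans (by norm_num) hx.1.le, le_trans hx.2.le (by norm_num)⟩
      ψs := hψs
      ψG := fun x hx => by
        have h := (hψO hx).2
        exact ⟨hG1 x (lt_trans h (by norm_num)), (mem_Eb0 (by norm_num)).2
          (lt_trans h (by norm_num))⟩
      fa := by
        intro x hx
        by_cases h1 : √(sq x) ≤ 998 / 1000
        · exact Or.inl (hψ1 x ⟨Real.sqrt_nonneg _, h1⟩)
        refine Or.inr ?_
        push Not at h1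
        by_cases h2 : √(sq x) < 18
        · have h3 : x ∈ Ao n (997 / 1000) 18 := ⟨lt_trans (by norm_num) h1, h2⟩
          have h4 : ∀ y ∈ Ao n (997 / 1000) 18, η y = 1 := fun y hy =>
            hη1 y ⟨hy.1.le, hy.2.le⟩
          exact ⟨fun i => pd_zero_of (isOpen_Ao _ _) h4 h3 i, fun i j =>
            pd_zero_of (isOpen_Ao _ _) (fun y hy => pd_zero_of (isOpen_Ao _ _) h4 hy j) h3 i⟩
        · push Not at h2
          have h3 : x ∉ tsupport η := by
            intro h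
            exact hx ⟨h2, (hηO h).2.le⟩
          exact ⟨fun i => pd_off_ts h3 i, fun i j => pd2_off_ts h3 i j⟩
      fab := by
        intro x hx y hy
        have h := hb hy
        exact ⟨by linarith [hx.1, h.1], by linarith [hx.2, h.2]⟩
      fbP := fun x hx => ⟨le_trans (by norm_num) hx.1, hx.2⟩
      q₁ := by
        intro p hp x hx
        have h := hb hx
        have h' := hoff p hp
        exact ⟨by linarith [h.1, h'.1], by linarith [h.2, h'.2]⟩
      q₂ := by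
        intro p hp x hx
        have h := hb hx
        have h' := hoff p hp
        exact hη1 x ⟨by linarith [h.1, h'.1], by linarith [h.2, h'.2]⟩
      q₄ := by
        intro p hp hi x hx
        have h := hb hx
        have h' := hoff p hp
        have h11 : 11 ≤ √(sq p) := by
          by_contra hc
          push Not at hc
          obtain ⟨i, hi⟩ := hi
          exact hi (pd_zero_of (isOpen_Ao (999 / 1000) 11) hχ1
            ⟨lt_of_lt_of_le (by norm_num) h'.1, hc⟩ i)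
        exact ⟨by linarith [h.1], by linarith [h.2, h'.2]⟩
      q₅ := by
        intro p hp x hx
        have h := hb hx
        have h' := hηO hp
        exact ⟨by linarith [h.1, h'.1], by linarith [h.2, h'.2]⟩ }
  exact trf hgeo h3

end Vale.Agent.P088.HY.T3
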