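import Vale.Agent.P088.R2.H354.Cal

/-!
# Finite rank approximation of doubly harmonic functions on an open set
-/

open MeasureTheory Set
open scoped ContDiff Matrix Topology

noncomputable section

namespace Vale.Agent.P088.HY.T3

open Vale.Agent.P088.LR G

variable {n : ℕ} {O P : Set (V n)}

/-- Finite nets in the `L²` sense. -/
theorem net (hP : IsCompact P) (hPO : P ⊆ O) {k : VV n → ℝ} (hk : ContDiffOn ℝ ∞ k (O ×ˢ O))
    {δ : ℝ} (hδ : 0 < δ) : ∃ t : Finset (V n), (∀ y ∈ t, y ∈ P) ∧ ∀ y ∈ P, ∃ y' ∈ t,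
      ∫ x in P, (k (x, y) - k (x, y')) ^ 2 ≤ δ ^ 2 := by
  set m := volume.real P with hm
  have hm0 : 0 ≤ m := measureReal_nonneg
  have hA0 : (0 : ℝ) < m + 1 := by positivity
  have hδ' : 0 < δ / √(m + 1) := by positivity
  have hkc : ContinuousOn k (P ×ˢ P) := hk.continuousOn.mono (prod_mono hPO hPO)
  have huc := (hP.prod hP).uniformContinuousOn_of_continuous hkc
  rw [Metric.uniformContinuousOn_iff] at huc
  obtain ⟨ρ, hρ, hu⟩ := huc _ hδ'
  obtain ⟨t, ht, htf, hcov⟩ := hP.finite_cover_balls hρ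
  refine ⟨htf.toFinset, fun y hy => ht (htf.mem_toFinset.1 hy), fun y hy => ?_⟩
  obtain ⟨y', hy', hyy⟩ := mem_iUnion₂.1 (hcov hy)
  refine ⟨y', htf.mem_toFinset.2 hy', ?_⟩
  have h1 : ∀ x ∈ P, (k (x, y) - k (x, y')) ^ 2 ≤ (δ / √(m + 1)) ^ 2 := by
    intro x hx
    have h2 := hu (x, y) ⟨hx, hy⟩ (x, y') ⟨hx, ht hy'⟩ (by
      rw [Prod.dist_eq, dist_self, max_eq_right dist_nonneg]; exact hyy)
    rw [Real.dist_eq] at h2
    exact sq_le_sq' (by linarith [(abs_lt.1 h2).1]) (abs_lt.1 h2).2.le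
  have hc : ContinuousOn (fun x => (k (x, y) - k (x, y')) ^ 2) P :=
    (((slx hk (hPO hy)).continuousOn.mono hPO).sub
      ((slx hk (hPO (ht hy'))).continuousOn.mono hPO)).pow 2
  calc ∫ x in P, (k (x, y) - k (x, y')) ^ 2 ≤ ∫ x in P, (δ / √(m + 1)) ^ 2 :=
        setIntegral_mono_on (hc.integrableOn_compact hP)
          (integrableOn_const hP.measure_lt_top.ne) hP.measurableSet h1
    _ = m * (δ / √(m + 1)) ^ 2 := by rw [setIntegral_const, smul_eq_mul]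
    _ = m * δ ^ 2 / (m + 1) := by rw [div_pow, Real.sq_sqrt hA0.le]; ring
    _ ≤ δ ^ 2 := by
        rw [div_le_iff₀ hA0]
        nlinarith [sq_nonneg δ]

/-- Approximation of `k` by sums of products of solutions; `R` is the remainder. -/
theorem approx (hO : IsOpen O) (hP : IsCompact P) (hPO : P ⊆ O) {s₁ s₂ : MF n} {k : VV n → ℝ}
    (hk : ContDiffOn ℝ ∞ k (O ×ˢ O)) (h1 : ∀ z ∈ O ×ˢ O, Lx s₁ k z = 0)
    (h2 : ∀ z ∈ O ×ˢ O, Ly s₂ k z = 0) {δ : ℝ} (hδ : 0 < δ) :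
    ∃ (d : ℕ) (e g : Fin d → V n → ℝ) (R : VV n → ℝ),
      (∀ q, ContDiffOn ℝ ∞ (e q) O) ∧ (∀ q, ContDiffOn ℝ ∞ (g q) O) ∧
      (∀ q, ∀ x ∈ O, Lv s₁ (e q) x = 0) ∧ (∀ q, ∀ x ∈ O, Lv s₂ (g q) x = 0) ∧
      ContDiffOn ℝ ∞ R (O ×ˢ O) ∧ (∀ z, R z = k z - ∑ q, g q z.2 * e q z.1) ∧
      (∀ z ∈ O ×ˢ O, Lx s₁ R z = 0) ∧ (∀ z ∈ O ×ˢ O, Ly s₂ R z = 0) ∧
      ∀ y ∈ P, ∫ x in P, R (x, y) ^ 2 ≤ δ ^ 2 := by
  obtain ⟨t, ht, hnet⟩ := net hP hPO hk hδ
  have hsl : ∀ l : t, ContDiffOn ℝ ∞ (fun x => k (x, (l : V n))) O :=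
    fun l => slx hk (hPO (ht l l.2))
  have hv : ∀ l : t, MemLp (fun x => k (x, (l : V n))) 2 (volume.restrict P) :=
    fun l => memLp_P hP ((hsl l).continuousOn.mono hPO)
  obtain ⟨d, c, hc⟩ := R2.H948.proj_fun (volume.restrict P) (fun (l : t) x => k (x, (l : V n))) hv
  set e : Fin d → V n → ℝ := fun q x => ∑ l : t, c q l * k (x, (l : V n)) with he
  have hes : ∀ q, ContDiffOn ℝ ∞ (e q) O := fun q =>
    ContDiffOn.sum fun l _ => contDiffOn_const.mul (hsl l)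
  have hel : ∀ q, ∀ x ∈ O, Lv s₁ (e q) x = 0 := by
    intro q x hx
    rw [he]
    show Lv s₁ (fun x => ∑ l : t, c q l * k (x, (l : V n))) x = 0
    rw [Lv_sum hO (F := fun (l : t) x => k (x, (l : V n))) (c q) hx hsl s₁]
    refine Finset.sum_eq_zero fun l _ => ?_
    rw [Lv_slx hO hk s₁ hx (hPO (ht l l.2)), h1 _ ⟨hx, hPO (ht l l.2)⟩, mul_zero]
  have hec : ∀ q, ContinuousOn (e q) P := fun q => (hes q).continuousOn.mono hPO
  set g : Fin d → V n → ℝ := fun q y => ∫ x in P, e q x * k (x, y) with hg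
  have hgs : ∀ q, ContDiffOn ℝ ∞ (g q) O := fun q => (paramO hO hP hPO hk (hec q)).1
  have hgl : ∀ q, ∀ y ∈ O, Lv s₂ (g q) y = 0 := fun q => Lv_param hO hP hPO hk (hec q) h2
  set R : VV n → ℝ := fun z => k z - ∑ q, g q z.2 * e q z.1 with hR
  have hRs : ContDiffOn ℝ ∞ R (O ×ˢ O) := by
    refine hk.sub (ContDiffOn.sum fun q _ => ?_)
    exact ((hgs q).comp contDiff_snd.contDiffOn fun z hz => hz.2).mul
      ((hes q).comp contDiff_fst.contDiffOn fun z hz => hz.1)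
  refine ⟨d, e, g, R, hes, hgs, hel, hgl, hRs, fun z => rfl, ?_, ?_, ?_⟩
  · rintro ⟨x, y⟩ ⟨hx, hy⟩
    rw [← Lv_slx hO hRs s₁ hx hy]
    have h3 := Lv_sub hO (f := fun x => k (x, y)) (g := fun x => ∑ q, g q y * e q x)
      (slx hk hy) (ContDiffOn.sum fun q _ => contDiffOn_const.mul (hes q)) hx s₁
    rw [Lv_slx hO hk s₁ hx hy, h1 _ ⟨hx, hy⟩, Lv_sum hO (F := e) (fun q => g q y) hx hes s₁,
      Finset.sum_eq_zero fun q _ => by rw [hel q x hx, mul_zero], sub_zero] at h3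
    exact h3
  · rintro ⟨x, y⟩ ⟨hx, hy⟩
    rw [← Lv_sly hO hRs s₂ hx hy]
    have h3 := Lv_sub hO (f := fun y => k (x, y)) (g := fun y => ∑ q, e q x * g q y)
      (sly hk hx) (ContDiffOn.sum fun q _ => contDiffOn_const.mul (hgs q)) hy s₂
    rw [Lv_sly hO hk s₂ hx hy, h2 _ ⟨hx, hy⟩, Lv_sum hO (F := g) (fun q => e q x) hy hgs s₂,
      Finset.sum_eq_zero fun q _ => by rw [hgl q y hy, mul_zero], sub_zero] at h3
    have h4 : (fun y => R (x, y)) = fun y => k (x, y) - ∑ q, e q x * g q y := by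
      funext y
      simp only [hR]
      congr 1
      exact Finset.sum_congr rfl fun q _ => mul_comm _ _
    rw [h4]
    exact h3
  · intro y hy
    obtain ⟨y', hy', hle⟩ := hnet y hy
    have h3 := hc (fun x => k (x, y)) (memLp_P hP ((slx hk (hPO hy)).continuousOn.mono hPO))
      ⟨y', hy'⟩
    exact h3.trans hle

/-- The interior estimate at the scale `r` in the open set `D`. -/
def IntE (s : MF n) (D : Set (V n)) (r C : ℝ) : Prop :=
  ∀ p, Metric.ball p r ⊆ D → ∀ u : V n → ℝ, ContDiffOn ℝ ∞ u (Metric.ball p r) →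
    (∀ x ∈ Metric.ball p r, Lv s u x = 0) → IntegrableOn (fun x => u x ^ 2) (Metric.ball p r) →
    ∀ o : Option (Fin n), |jd o u p| ≤ C * √(∫ x in Metric.ball p r, u x ^ 2)

theorem IntE.mono {s : MF n} {D D' : Set (V n)} {r C : ℝ} (h : IntE s D r C) (hD : D' ⊆ D) :
    IntE s D' r C := fun p hp => h p (hp.trans hD)

/-- The interior estimate with a set containing the ball. -/
theorem IntE.le {s : MF n} {D Q : Set (V n)} {r C : ℝ} (h : IntE s D r C) (hC : 0 ≤ C) {p : V n}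
    (hp : Metric.ball p r ⊆ D) (hQ : Metric.ball p r ⊆ Q) {u : V n → ℝ}
    (hu : ContDiffOn ℝ ∞ u (Metric.ball p r)) (hL : ∀ x ∈ Metric.ball p r, Lv s u x = 0)
    (hi : IntegrableOn (fun x => u x ^ 2) Q) (o : Option (Fin n)) {A : ℝ} (hA : 0 ≤ A)
    (hAQ : ∫ x in Q, u x ^ 2 ≤ A ^ 2) : |jd o u p| ≤ C * A := by
  refine (h p hp u hu hL (hi.mono_set hQ) o).trans (mul_le_mul_of_nonneg_left ?_ hC)
  rw [Real.sqrt_le_left hA]
  exact (setIntegral_mono_set hi (Filter.Eventually.of_forall fun x => sq_nonneg _)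
    hQ.eventuallyLE).trans hAQ

/-- The interior estimate from a bound on the ball. -/
theorem IntE.sup {s : MF n} {D : Set (V n)} {r C : ℝ} (h : IntE s D r C) (hC : 0 ≤ C) {p : V n}
    (hp : Metric.ball p r ⊆ D) {u : V n → ℝ}
    (hu : ContDiffOn ℝ ∞ u (Metric.ball p r)) (hL : ∀ x ∈ Metric.ball p r, Lv s u x = 0)
    (o : Option (Fin n)) {A : ℝ} (hA : 0 ≤ A) (hAQ : ∀ x ∈ Metric.ball p r, |u x| ≤ A) :
    |jd o u p| ≤ C * (A * √(volume.real (Metric.ball p r))) := by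
  have hfin : volume (Metric.ball p r) < ⊤ := measure_ball_lt_top
  have hint : IntegrableOn (fun x => u x ^ 2) (Metric.ball p r) := by
    have hfi : IsFiniteMeasure (volume.restrict (Metric.ball p r)) :=
      ⟨by rw [Measure.restrict_apply_univ]; exact hfin⟩
    refine Integrable.of_bound ((hu.continuousOn.pow 2).aestronglyMeasurable measurableSet_ball)
      (A ^ 2) ((ae_restrict_iff' measurableSet_ball).2 (Filter.Eventually.of_forall fun x hx => ?_))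
    rw [Real.norm_eq_abs, abs_of_nonneg (sq_nonneg _)]
    exact sq_le_sq' (by linarith [(abs_le.1 (hAQ x hx)).1]) (abs_le.1 (hAQ x hx)).2
  refine (h p hp u hu hL hint o).trans (mul_le_mul_of_nonneg_left ?_ hC)
  have h1 : ∫ x in Metric.ball p r, u x ^ 2 ≤ A ^ 2 * volume.real (Metric.ball p r) := by
    calc _ ≤ ∫ x in Metric.ball p r, A ^ 2 := setIntegral_mono_on hint
          (integrableOn_const hfin.ne) measurableSet_ball fun x hx =>
            sq_le_sq' (by linarith [(abs_le.1 (hAQ x hx)).1]) (abs_le.1 (hAQ x hx)).2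
      _ = _ := by rw [setIntegral_const, smul_eq_mul, mul_comm]
  calc √(∫ x in Metric.ball p r, u x ^ 2) ≤ √(A ^ 2 * volume.real (Metric.ball p r)) :=
        Real.sqrt_le_sqrt h1
    _ = _ := by rw [Real.sqrt_mul (sq_nonneg _), Real.sqrt_sq hA]

end Vale.Agent.P088.HY.T3
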