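import Vale.Agent.P088.R2.H948.G.Sys

/-!
# Calculus of functions on pairs of points of an open set; finite rank approximation
-/

open MeasureTheory Set
open scoped ContDiff Matrix Topology

noncomputable section

namespace Vale.Agent.P088.HY.T3

open Vale.Agent.P088.LR G

variable {n : ℕ} {O P : Set (V n)}

theorem cd_dx (hO : IsOpen O) {f : VV n → ℝ} (hf : ContDiffOn ℝ ∞ f (O ×ˢ O)) (i : Fin n) :
    ContDiffOn ℝ ∞ (dx i f) (O ×ˢ O) :=
  (hf.fderiv_of_isOpen (hO.prod hO) (by simp)).clm_apply contDiffOn_const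

theorem cd_dy (hO : IsOpen O) {f : VV n → ℝ} (hf : ContDiffOn ℝ ∞ f (O ×ˢ O)) (i : Fin n) :
    ContDiffOn ℝ ∞ (dy i f) (O ×ˢ O) :=
  (hf.fderiv_of_isOpen (hO.prod hO) (by simp)).clm_apply contDiffOn_const

theorem dAtO (hO : IsOpen O) {f : VV n → ℝ} (hf : ContDiffOn ℝ ∞ f (O ×ˢ O)) {z : VV n}
    (hz : z ∈ O ×ˢ O) : DifferentiableAt ℝ f z :=
  (hf.contDiffAt ((hO.prod hO).mem_nhds hz)).differentiableAt (by simp)

theorem dAt1 (hO : IsOpen O) {f : V n → ℝ} (hf : ContDiffOn ℝ ∞ f O) {x : V n} (hx : x ∈ O) :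
    DifferentiableAt ℝ f x :=
  (hf.contDiffAt (hO.mem_nhds hx)).differentiableAt (by simp)

theorem slx {f : VV n → ℝ} (hf : ContDiffOn ℝ ∞ f (O ×ˢ O)) {y : V n} (hy : y ∈ O) :
    ContDiffOn ℝ ∞ (fun x => f (x, y)) O :=
  hf.comp (contDiff_id.prodMk contDiff_const).contDiffOn fun _ hx => ⟨hx, hy⟩

theorem sly {f : VV n → ℝ} (hf : ContDiffOn ℝ ∞ f (O ×ˢ O)) {x : V n} (hx : x ∈ O) :
    ContDiffOn ℝ ∞ (fun y => f (x, y)) O :=
  hf.comp (contDiff_const.prodMk contDiff_id).contDiffOn fun _ hy => ⟨hx, hy⟩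

theorem cd_jd (hO : IsOpen O) {f : V n → ℝ} (hf : ContDiffOn ℝ ∞ f O) (o : Option (Fin n)) :
    ContDiffOn ℝ ∞ (jd o f) O := by
  cases o with
  | none => exact hf
  | some i => exact contDiffOn_pd hO hf i

theorem cd_jx (hO : IsOpen O) {f : VV n → ℝ} (hf : ContDiffOn ℝ ∞ f (O ×ˢ O))
    (o : Option (Fin n)) : ContDiffOn ℝ ∞ (jx o f) (O ×ˢ O) := by
  cases o with
  | none => exact hf
  | some i => exact cd_dx hO hf i

theorem cd_jy (hO : IsOpen O) {f : VV n → ℝ} (hf : ContDiffOn ℝ ∞ f (O ×ˢ O))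
    (o : Option (Fin n)) : ContDiffOn ℝ ∞ (jy o f) (O ×ˢ O) := by
  cases o with
  | none => exact hf
  | some i => exact cd_dy hO hf i

theorem jd_cg (hO : IsOpen O) {f g : V n → ℝ} (h : ∀ x ∈ O, f x = g x) {x : V n} (hx : x ∈ O)
    (o : Option (Fin n)) : jd o f x = jd o g x := by
  cases o with
  | none => exact h x hx
  | some i => exact pd_congr (Filter.eventually_of_mem (hO.mem_nhds hx) h) i

theorem jd_slx (hO : IsOpen O) {f : VV n → ℝ} (hf : ContDiffOn ℝ ∞ f (O ×ˢ O)) {x y : V n}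
    (hx : x ∈ O) (hy : y ∈ O) (o : Option (Fin n)) :
    jd o (fun x => f (x, y)) x = jx o f (x, y) := by
  cases o with
  | none => rfl
  | some i => exact pd_slice_x (dAtO hO hf ⟨hx, hy⟩) i

theorem jd_sly (hO : IsOpen O) {f : VV n → ℝ} (hf : ContDiffOn ℝ ∞ f (O ×ˢ O)) {x y : V n}
    (hx : x ∈ O) (hy : y ∈ O) (o : Option (Fin n)) :
    jd o (fun y => f (x, y)) y = jy o f (x, y) := by
  cases o with
  | none => rfl
  | some i => exact pd_slice_y (dAtO hO hf ⟨hx, hy⟩) i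

theorem jd2_slx (hO : IsOpen O) {f : VV n → ℝ} (hf : ContDiffOn ℝ ∞ f (O ×ˢ O)) {x y : V n}
    (hx : x ∈ O) (hy : y ∈ O) (o o' : Option (Fin n)) :
    jd o (jd o' (fun x => f (x, y))) x = jx o (jx o' f) (x, y) := by
  rw [jd_cg hO (fun x' hx' => jd_slx hO hf hx' hy o') hx]
  exact jd_slx hO (cd_jx hO hf o') hx hy o

theorem jd2_sly (hO : IsOpen O) {f : VV n → ℝ} (hf : ContDiffOn ℝ ∞ f (O ×ˢ O)) {x y : V n}
    (hx : x ∈ O) (hy : y ∈ O) (o o' : Option (Fin n)) :
    jd o (jd o' (fun y => f (x, y))) y = jy o (jy o' f) (x, y) := by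
  rw [jd_cg hO (fun y' hy' => jd_sly hO hf hx hy' o') hy]
  exact jd_sly hO (cd_jy hO hf o') hx hy o

theorem dxy_comm (hO : IsOpen O) {f : VV n → ℝ} (hf : ContDiffOn ℝ ∞ f (O ×ˢ O)) {z : VV n}
    (hz : z ∈ O ×ˢ O) (i j : Fin n) : dx i (dy j f) z = dy j (dx i f) z := by
  have hU := hO.prod hO
  have h1 : DifferentiableAt ℝ (fderiv ℝ f) z :=
    ((hf.fderiv_of_isOpen (m := ∞) hU (by simp)).contDiffAt
      (hU.mem_nhds hz)).differentiableAt (by simp)
  have h2 : IsSymmSndFDerivAt ℝ f z := by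
    refine (hf.contDiffAt (hU.mem_nhds hz)).isSymmSndFDerivAt ?_
    rw [minSmoothness_of_isRCLikeNormedField]
    exact ENat.LEInfty.out
  unfold dx dy
  rw [fderiv_clm_apply h1 (differentiableAt_const _), fderiv_clm_apply h1
    (differentiableAt_const _)]
  simp only [fderiv_fun_const, Pi.zero_apply, ContinuousLinearMap.comp_zero, zero_add,
    ContinuousLinearMap.flip_apply]
  exact h2 _ _

theorem jx_jyO (hO : IsOpen O) {f : VV n → ℝ} (hf : ContDiffOn ℝ ∞ f (O ×ˢ O)) {z : VV n}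
    (hz : z ∈ O ×ˢ O) (o o' : Option (Fin n)) : jx o (jy o' f) z = jy o' (jx o f) z := by
  cases o with
  | none => rfl
  | some i =>
    cases o' with
    | none => rfl
    | some j => exact dxy_comm hO hf hz i j

theorem Lv_slx (hO : IsOpen O) {f : VV n → ℝ} (hf : ContDiffOn ℝ ∞ f (O ×ˢ O)) (s : MF n)
    {x y : V n} (hx : x ∈ O) (hy : y ∈ O) : Lv s (fun x => f (x, y)) x = Lx s f (x, y) := by
  unfold Lv Lx
  exact Finset.sum_congr rfl fun i _ => Finset.sum_congr rfl fun j _ => by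
    have h := jd2_slx hO hf hx hy (some i) (some j)
    simp only [jd_some, jx_some] at h
    rw [h]

theorem Lv_sly (hO : IsOpen O) {f : VV n → ℝ} (hf : ContDiffOn ℝ ∞ f (O ×ˢ O)) (s : MF n)
    {x y : V n} (hx : x ∈ O) (hy : y ∈ O) : Lv s (fun y => f (x, y)) y = Ly s f (x, y) := by
  unfold Lv Ly
  exact Finset.sum_congr rfl fun i _ => Finset.sum_congr rfl fun j _ => by
    have h := jd2_sly hO hf hx hy (some i) (some j)
    simp only [jd_some, jy_some] at h
    rw [h]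

theorem jd_sumO (hO : IsOpen O) {I : Type*} [Fintype I] {F : I → V n → ℝ} (c : I → ℝ) {x : V n}
    (hx : x ∈ O) (hF : ∀ q, ContDiffOn ℝ ∞ (F q) O) (o : Option (Fin n)) :
    jd o (fun x => ∑ q, c q * F q x) x = ∑ q, c q * jd o (F q) x := by
  cases o with
  | none => rfl
  | some i => exact pd_sum c (fun q => dAt1 hO (hF q) hx) i

theorem jd2_sumO (hO : IsOpen O) {I : Type*} [Fintype I] {F : I → V n → ℝ} (c : I → ℝ)
    {x : V n} (hx : x ∈ O) (hF : ∀ q, ContDiffOn ℝ ∞ (F q) O) (o o' : Option (Fin n)) :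
    jd o (jd o' (fun x => ∑ q, c q * F q x)) x = ∑ q, c q * jd o (jd o' (F q)) x := by
  rw [jd_cg hO (fun y hy => jd_sumO hO c hy hF o') hx]
  exact jd_sumO hO c hx (fun q => cd_jd hO (hF q) o') o

theorem Lv_sum (hO : IsOpen O) {I : Type*} [Fintype I] {F : I → V n → ℝ} (c : I → ℝ) {x : V n}
    (hx : x ∈ O) (hF : ∀ q, ContDiffOn ℝ ∞ (F q) O) (s : MF n) :
    Lv s (fun x => ∑ q, c q * F q x) x = ∑ q, c q * Lv s (F q) x := by
  unfold Lv
  have h1 : ∀ i j, s x i j * pd i (pd j (fun x => ∑ q, c q * F q x)) x =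
      ∑ q, c q * (s x i j * pd i (pd j (F q)) x) := by
    intro i j
    have h := jd2_sumO hO c hx hF (some i) (some j)
    simp only [jd_some] at h
    rw [h, Finset.mul_sum]
    exact Finset.sum_congr rfl fun q _ => by ring
  simp only [h1, Finset.mul_sum]
  rw [Finset.sum_congr rfl fun i _ => Finset.sum_comm, Finset.sum_comm]

theorem Lv_cg (hO : IsOpen O) {f g : V n → ℝ} (h : ∀ x ∈ O, f x = g x) {x : V n} (hx : x ∈ O)
    (s : MF n) : Lv s f x = Lv s g x := by
  unfold Lv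
  refine Finset.sum_congr rfl fun i _ => Finset.sum_congr rfl fun j _ => ?_
  have h1 : ∀ y ∈ O, pd j f y = pd j g y := fun y hy => jd_cg hO h hy (some j)
  have h2 := jd_cg hO h1 hx (some i)
  simp only [jd_some] at h2
  rw [h2]

theorem Lv_sub (hO : IsOpen O) {f g : V n → ℝ} (hf : ContDiffOn ℝ ∞ f O)
    (hg : ContDiffOn ℝ ∞ g O) {x : V n} (hx : x ∈ O) (s : MF n) :
    Lv s (fun x => f x - g x) x = Lv s f x - Lv s g x := by
  have h := Lv_sum hO (F := fun (q : Fin 2) x => if q = 0 then f x else g x)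
    (fun q => if q = 0 then 1 else -1) hx (fun q => by
      fin_cases q
      · simpa using hf
      · simpa using hg) s
  simp only [Fin.sum_univ_two, Fin.isValue, if_true, one_mul, Fin.one_eq_zero_iff,
    OfNat.ofNat_ne_one, if_false, neg_mul, ← sub_eq_add_neg] at h
  exact h

theorem jd_sub (hO : IsOpen O) {f g : V n → ℝ} (hf : ContDiffOn ℝ ∞ f O)
    (hg : ContDiffOn ℝ ∞ g O) {x : V n} (hx : x ∈ O) (o : Option (Fin n)) :
    jd o (fun x => f x - g x) x = jd o f x - jd o g x := by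
  cases o with
  | none => rfl
  | some i =>
    show fderiv ℝ (fun x => f x - g x) x _ = _
    rw [fderiv_fun_sub (dAt1 hO hf hx) (dAt1 hO hg hx)]
    rfl

theorem jd_add (hO : IsOpen O) {f g : V n → ℝ} (hf : ContDiffOn ℝ ∞ f O)
    (hg : ContDiffOn ℝ ∞ g O) {x : V n} (hx : x ∈ O) (o : Option (Fin n)) :
    jd o (fun x => f x + g x) x = jd o f x + jd o g x := by
  cases o with
  | none => rfl
  | some i =>
    show fderiv ℝ (fun x => f x + g x) x _ = _
    rw [fderiv_fun_add (dAt1 hO hf hx) (dAt1 hO hg hx)]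
    rfl

/-! ## Parametric integrals -/

theorem memLp_P (hP : IsCompact P) {f : V n → ℝ} (hf : ContinuousOn f P) :
    MemLp f 2 (volume.restrict P) := by
  have hfin : IsFiniteMeasure (volume.restrict P) :=
    ⟨by rw [Measure.restrict_apply_univ]; exact hP.measure_lt_top⟩
  obtain ⟨B, hB⟩ := hP.exists_bound_of_continuousOn hf
  exact MemLp.of_bound (hf.aestronglyMeasurable hP.measurableSet) B
    ((ae_restrict_iff' hP.measurableSet).2 (Filter.Eventually.of_forall hB))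

theorem cut_mul {E : Type*} [NormedAddCommGroup E] [NormedSpace ℝ E] {g : E × V n → ℝ}
    {U : Set E} (hU : IsOpen U) (hO : IsOpen O) {ch : V n → ℝ} (hc : ContDiff ℝ ∞ ch)
    (hcs : tsupport ch ⊆ O) (hg : ContDiffOn ℝ ∞ g (U ×ˢ O)) :
    ContDiffOn ℝ ∞ (fun z : E × V n => ch z.2 * g z) (U ×ˢ univ) := by
  rintro ⟨p, x⟩ ⟨hp, -⟩
  refine ContDiffAt.contDiffWithinAt ?_
  by_cases hx : x ∈ O
  · exact (hc.comp contDiff_snd).contDiffAt.mul
      (hg.contDiffAt ((hU.prod hO).mem_nhds ⟨hp, hx⟩))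
  · have hx' : x ∉ tsupport ch := fun h => hx (hcs h)
    have h1 : {z : E × V n | z.2 ∉ tsupport ch} ∈ 𝓝 (p, x) :=
      ((isClosed_tsupport ch).isOpen_compl.preimage continuous_snd).mem_nhds hx'
    have h2 : (fun z : E × V n => ch z.2 * g z) =ᶠ[𝓝 (p, x)] fun _ => 0 := by
      filter_upwards [h1] with z hz
      rw [image_eq_zero_of_notMem_tsupport hz, zero_mul]
    exact contDiffAt_const.congr_of_eventuallyEq h2

theorem cut_mul1 (hO : IsOpen O) {ch : V n → ℝ} (hc : ContDiff ℝ ∞ ch)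
    (hcs : tsupport ch ⊆ O) {g : V n → ℝ} (hg : ContDiffOn ℝ ∞ g O) :
    ContDiff ℝ ∞ fun x : V n => ch x * g x := by
  rw [contDiff_iff_contDiffAt]
  intro x
  by_cases hx : x ∈ O
  · exact hc.contDiffAt.mul (hg.contDiffAt (hO.mem_nhds hx))
  · have hx' : x ∉ tsupport ch := fun h => hx (hcs h)
    have h1 : (tsupport ch)ᶜ ∈ 𝓝 x := (isClosed_tsupport ch).isOpen_compl.mem_nhds hx'
    have h2 : (fun z : V n => ch z * g z) =ᶠ[𝓝 x] fun _ => 0 := by
      filter_upwards [h1] with z hz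
      rw [image_eq_zero_of_notMem_tsupport hz, zero_mul]
    exact contDiffAt_const.congr_of_eventuallyEq h2

/-- A cut-off function: `1` on `P`, compactly supported in `O`. -/
theorem exists_cut (hO : IsOpen O) (hP : IsCompact P) (hPO : P ⊆ O) :
    ∃ ch : V n → ℝ, ContDiff ℝ ∞ ch ∧ HasCompactSupport ch ∧ tsupport ch ⊆ O ∧
      ∀ x ∈ P, ch x = 1 := by
  obtain ⟨δ, hδ, hδO⟩ := hP.exists_cthickening_subset_open hO hPO
  obtain ⟨f, f1, f2, f3, f4⟩ := exists_contMDiff_support_eq_eq_one_iff (n := (⊤ : ℕ∞))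
    (modelWithCornersSelf ℝ (V n)) (Metric.isOpen_thickening (δ := δ) (E := P)) hP.isClosed
    (Metric.self_subset_thickening hδ P)
  have hts : tsupport f ⊆ Metric.cthickening δ P := by
    refine closure_minimal ?_ Metric.isClosed_cthickening
    rw [f3]
    exact Metric.thickening_subset_cthickening δ P
  exact ⟨f, contMDiff_iff_contDiff.1 f1, hP.cthickening.of_isClosed_subset (isClosed_tsupport f)
    hts, hts.trans hδO, fun x hx => (f4 x).1 hx⟩

/-- Parametric integrals over `P`. -/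
theorem paramO (hO : IsOpen O) (hP : IsCompact P) (hPO : P ⊆ O) {k : VV n → ℝ}
    (hk : ContDiffOn ℝ ∞ k (O ×ˢ O)) {e : V n → ℝ} (he : ContinuousOn e P) :
    ContDiffOn ℝ ∞ (fun y => ∫ x in P, e x * k (x, y)) O ∧
      ∀ y ∈ O, ∀ i, pd i (fun y => ∫ x in P, e x * k (x, y)) y =
        ∫ x in P, e x * dy i k (x, y) := by
  obtain ⟨ch, c1, c2, c3, c4⟩ := exists_cut hO hP hPO
  have hei : Integrable e (volume.restrict P) := he.integrableOn_compact hP
  have hsw : ContDiffOn ℝ ∞ (fun z : V n × V n => k (z.2, z.1)) (O ×ˢ O) :=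
    hk.comp (contDiff_snd.prodMk contDiff_fst).contDiffOn fun z hz => ⟨hz.2, hz.1⟩
  have hK : ContDiffOn ℝ ∞ (Function.uncurry fun y x : V n => ch x * k (x, y))
      (O ×ˢ univ) := cut_mul hO hO c1 c3 hsw
  have hK0 : ∀ p ∈ O, ∀ x : V n, x ∉ tsupport ch → ch x * k (x, p) = 0 := by
    intro p _ x hx
    rw [image_eq_zero_of_notMem_tsupport hx, zero_mul]
  have heq : (fun y => ∫ x in P, e x * k (x, y)) =
      fun y => ∫ x in P, (ch x * k (x, y)) * e x := by
    funext y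
    refine setIntegral_congr_fun hP.measurableSet fun x hx => ?_
    show e x * k (x, y) = (ch x * k (x, y)) * e x
    rw [c4 x hx]; ring
  constructor
  · rw [heq]
    exact P288.X3.contDiffOn_param hO c2 hK0 hei hK
  · intro y hy i
    rw [heq]
    have h1 := P288.X3.fderiv_param hO c2 hK0 hei hK hy (Pi.single i 1)
    refine h1.trans ?_
    refine setIntegral_congr_fun hP.measurableSet fun x hx => ?_
    show fderiv ℝ (fun y => ch x * k (x, y)) y (Pi.single i 1) * e x = e x * dy i k (x, y)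
    have h2 : (fun y => ch x * k (x, y)) = fun y => k (x, y) := by
      funext y; rw [c4 x hx, one_mul]
    rw [h2, mul_comm]
    congr 1
    exact pd_slice_y (dAtO hO hk ⟨hPO hx, hy⟩) i

theorem jparamO (hO : IsOpen O) (hP : IsCompact P) (hPO : P ⊆ O) {k : VV n → ℝ}
    (hk : ContDiffOn ℝ ∞ k (O ×ˢ O)) {e : V n → ℝ} (he : ContinuousOn e P) {y : V n}
    (hy : y ∈ O) (o : Option (Fin n)) :
    jd o (fun y => ∫ x in P, e x * k (x, y)) y = ∫ x in P, e x * jy o k (x, y) := by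
  cases o with
  | none => rfl
  | some i => exact (paramO hO hP hPO hk he).2 y hy i

theorem jparam2O (hO : IsOpen O) (hP : IsCompact P) (hPO : P ⊆ O) {k : VV n → ℝ}
    (hk : ContDiffOn ℝ ∞ k (O ×ˢ O)) {e : V n → ℝ} (he : ContinuousOn e P) {y : V n}
    (hy : y ∈ O) (o o' : Option (Fin n)) :
    jd o (jd o' (fun y => ∫ x in P, e x * k (x, y))) y = ∫ x in P, e x * jy o (jy o' k) (x, y) := by
  rw [jd_cg hO (fun y' hy' => jparamO hO hP hPO hk he hy' o') hy]
  exact jparamO hO hP hPO (cd_jy hO hk o') he hy o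

theorem int_slO (hP : IsCompact P) (hPO : P ⊆ O) {f : VV n → ℝ}
    (hf : ContDiffOn ℝ ∞ f (O ×ˢ O)) {e : V n → ℝ} (he : ContinuousOn e P) {y : V n}
    (hy : y ∈ O) : Integrable (fun x => e x * f (x, y)) (volume.restrict P) :=
  (he.mul ((slx hf hy).continuousOn.mono hPO)).integrableOn_compact hP

/-- Parametric integrals of solutions are solutions. -/
theorem Lv_param (hO : IsOpen O) (hP : IsCompact P) (hPO : P ⊆ O) {k : VV n → ℝ}
    (hk : ContDiffOn ℝ ∞ k (O ×ˢ O)) {e : V n → ℝ} (he : ContinuousOn e P) {s : MF n}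
    (h : ∀ z ∈ O ×ˢ O, Ly s k z = 0) :
    ∀ y ∈ O, Lv s (fun y => ∫ x in P, e x * k (x, y)) y = 0 := by
  intro y hy
  unfold Lv
  have h1 : ∀ i j, s y i j * pd i (pd j (fun y => ∫ x in P, e x * k (x, y))) y =
      ∫ x in P, s y i j * (e x * dy i (dy j k) (x, y)) := by
    intro i j
    have h := jparam2O hO hP hPO hk he hy (some i) (some j)
    simp only [jd_some, jy_some] at h
    rw [h, integral_const_mul]
  have hint : ∀ i j, Integrable (fun x => s y i j * (e x * dy i (dy j k) (x, y)))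
      (volume.restrict P) := fun i j =>
    (int_slO hP hPO (cd_dy hO (cd_dy hO hk j) i) he hy).const_mul _
  simp only [h1]
  rw [Finset.sum_congr rfl fun i _ => (integral_finsetSum _ fun j _ => hint i j).symm,
    ← integral_finsetSum _ fun i _ => integrable_finsetSum _ fun j _ => hint i j]
  have h2 : ∀ x ∈ P, ∑ i, ∑ j, s y i j * (e x * dy i (dy j k) (x, y)) = 0 := by
    intro x hx
    have h3 : ∑ i, ∑ j, s y i j * (e x * dy i (dy j k) (x, y)) = e x * Ly s k (x, y) := by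
      unfold Ly
      rw [Finset.mul_sum]
      refine Finset.sum_congr rfl fun i _ => ?_
      rw [Finset.mul_sum]
      exact Finset.sum_congr rfl fun j _ => by ring
    rw [h3, h _ ⟨hPO hx, hy⟩, mul_zero]
  rw [setIntegral_congr_fun hP.measurableSet h2]
  simp

end Vale.Agent.P088.HY.T3
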