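import Vale.Agent.P088.R2.H354.Idn

/-!
# Cut-offs, the remainder
-/

open MeasureTheory Set
open scoped ContDiff Matrix Topology

noncomputable section

namespace Vale.Agent.P088.HY.T3

open Vale.Agent.P088.LR G

variable {n : ℕ} {O P : Set (V n)}

/-- `∂_{x_i}` commutes with `L` in the other variable. -/
theorem Ly_dxO (hO : IsOpen O) {f : VV n → ℝ} (hf : ContDiffOn ℝ ∞ f (O ×ˢ O)) {s : MF n}
    (h : ∀ z ∈ O ×ˢ O, Ly s f z = 0) (o : Option (Fin n)) : ∀ z ∈ O ×ˢ O, Ly s (jx o f) z = 0 := by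
  rintro ⟨x, y⟩ ⟨hx, hy⟩
  have h1 : ∀ j l, dy j (dy l (jx o f)) (x, y) = jd o (fun x => dy j (dy l f) (x, y)) x := by
    intro j l
    have hk2 := cd_dy hO hf l
    have a1 := jd_slx hO (cd_dy hO hk2 j) hx hy o
    have a2 := jx_jyO hO hk2 (z := (x, y)) ⟨hx, hy⟩ o (some j)
    simp only [jy_some] at a2
    rw [a1, a2]
    have a3 := jd_sly hO (cd_jx hO hk2 o) hx hy (some j)
    have a4 := jd_sly hO (cd_dy hO (cd_jx hO hf o) l) hx hy (some j)
    simp only [jy_some, jd_some] at a3 a4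
    rw [← a3, ← a4]
    have a5 : ∀ y' ∈ O, dy l (jx o f) (x, y') = jx o (dy l f) (x, y') := fun y' hy' => by
      have := jx_jyO hO hf (z := (x, y')) ⟨hx, hy'⟩ o (some l)
      simp only [jy_some] at this
      exact this.symm
    exact jd_cg hO a5 hy (some j)
  have h2 : Ly s (jx o f) (x, y) =
      jd o (fun x => ∑ q : Fin n × Fin n, s y q.1 q.2 * dy q.1 (dy q.2 f) (x, y)) x := by
    rw [jd_sumO hO (fun q : Fin n × Fin n => s y q.1 q.2) hx (fun q =>
      slx (cd_dy hO (cd_dy hO hf q.2) q.1) hy) o]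
    unfold Ly
    rw [Fintype.sum_prod_type]
    exact Finset.sum_congr rfl fun i _ => Finset.sum_congr rfl fun j _ => by rw [h1]
  have h3 : ∀ x' ∈ O, ∑ q : Fin n × Fin n, s y q.1 q.2 * dy q.1 (dy q.2 f) (x', y) =
      (fun _ => 0 : V n → ℝ) x' := fun x' hx' => by
    rw [Fintype.sum_prod_type]
    exact h (x', y) ⟨hx', hy⟩
  rw [h2, jd_cg hO h3 hx]
  cases o with
  | none => rfl
  | some i => show fderiv ℝ (fun _ : V n => (0 : ℝ)) x _ = 0; simp

/-- The commutator of `L` and the multiplication by `c`. -/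
def comm (s : MF n) (c u : V n → ℝ) (x : V n) : ℝ :=
  ∑ i, ∑ j, s x i j * (pd i c x * pd j u x + pd j c x * pd i u x + u x * pd i (pd j c) x)

theorem Lv_mul (hO : IsOpen O) {s : MF n} {c u : V n → ℝ} (hc : ContDiff ℝ ∞ c)
    (hu : ContDiffOn ℝ ∞ u O) {x : V n} (hx : x ∈ O) :
    Lv s (fun x => c x * u x) x = c x * Lv s u x + comm s c u x := by
  have hcd : ∀ y, DifferentiableAt ℝ c y := fun y => hc.differentiable (by simp) y
  have hc1 : ∀ j, ContDiff ℝ ∞ (pd j c) := fun j =>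
    (hc.fderiv_right (by simp)).clm_apply contDiff_const
  unfold Lv comm
  rw [Finset.mul_sum, ← Finset.sum_add_distrib]
  refine Finset.sum_congr rfl fun i _ => ?_
  rw [Finset.mul_sum, ← Finset.sum_add_distrib]
  refine Finset.sum_congr rfl fun j _ => ?_
  have h1 : ∀ y ∈ O, pd j (fun x => c x * u x) y = c y * pd j u y + u y * pd j c y := fun y hy =>
    pd_mul (hcd y) (dAt1 hO hu hy) j
  have h2 := jd_cg hO h1 hx (some i)
  simp only [jd_some] at h2
  have du := dAt1 hO hu hx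
  have dju := dAt1 hO (contDiffOn_pd hO hu j) hx
  have djc : DifferentiableAt ℝ (pd j c) x := (hc1 j).differentiable (by simp) x
  have hh : HasFDerivAt (fun y => c y * pd j u y + u y * pd j c y)
      ((c x • fderiv ℝ (pd j u) x + pd j u x • fderiv ℝ c x) +
        (u x • fderiv ℝ (pd j c) x + pd j c x • fderiv ℝ u x)) x :=
    ((hcd x).hasFDerivAt.mul dju.hasFDerivAt).add (du.hasFDerivAt.mul djc.hasFDerivAt)
  have h3 : pd i (fun y => c y * pd j u y + u y * pd j c y) x =
      (c x * pd i (pd j u) x + pd j u x * pd i c x) +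
        (u x * pd i (pd j c) x + pd j c x * pd i u x) := by
    show fderiv ℝ (fun y => c y * pd j u y + u y * pd j c y) x _ = _
    rw [hh.fderiv]
    simp only [_root_.add_apply, _root_.smul_apply, smul_eq_mul]
    rfl
  rw [h2, h3]
  ring

theorem bdd_cs {F : V n → ℝ} (hF : Continuous F) (hc : HasCompactSupport F) :
    ∃ C : ℝ, 0 ≤ C ∧ ∀ x, |F x| ≤ C := by
  obtain ⟨C, hC⟩ := hF.bounded_above_of_compact_support hc
  exact ⟨C, (norm_nonneg _).trans (hC 0), hC⟩

/-- Bounds for the cut-off. -/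
theorem cut_bd {s : MF n} (hs : SmM s) {c ψ : V n → ℝ} (hc : ContDiff ℝ ∞ c)
    (hcc : HasCompactSupport c) (hψ : Continuous ψ) : ∃ C : ℝ, 0 ≤ C ∧
    ∀ (u : V n → ℝ) (x : V n) (B : ℝ), DifferentiableAt ℝ u x → 0 ≤ B →
      (∀ o : Option (Fin n), |jd o u x| ≤ B) → |(1 - ψ x) * comm s c u x| ≤ C * B ∧
      |c x * u x| ≤ C * B ∧ ∀ i, |pd i (fun x => c x * u x) x| ≤ C * B := by
  have hc1 : ∀ j, ContDiff ℝ ∞ (pd j c) := fun j =>
    (hc.fderiv_right (by simp)).clm_apply contDiff_const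
  have hc2 : ∀ i j, ContDiff ℝ ∞ (pd i (pd j c)) := fun i j =>
    ((hc1 j).fderiv_right (by simp)).clm_apply contDiff_const
  have hcs1 : ∀ j, HasCompactSupport (pd j c) := fun j => hcc.fderiv_apply ℝ (Pi.single j 1)
  have hcs2 : ∀ i j, HasCompactSupport (pd i (pd j c)) := fun i j =>
    (hcs1 j).fderiv_apply ℝ (Pi.single i 1)
  obtain ⟨A0, hA0, a0⟩ := bdd_cs hc.continuous hcc
  choose A1 hA1 a1 using fun j => bdd_cs (hc1 j).continuous (hcs1 j)
  choose A2 hA2 a2 using fun i j l : Fin n =>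
    bdd_cs (F := fun x => (1 - ψ x) * s x i j * pd l c x)
      (((continuous_const.sub hψ).mul (hs i j).continuous).mul (hc1 l).continuous)
      (hcs1 l).mul_left
  choose A3 hA3 a3 using fun i j : Fin n =>
    bdd_cs (F := fun x => (1 - ψ x) * s x i j * pd i (pd j c) x)
      (((continuous_const.sub hψ).mul (hs i j).continuous).mul (hc2 i j).continuous)
      (hcs2 i j).mul_left
  set T : ℝ := A0 + ∑ j, A1 j + ∑ i, ∑ j, (A2 i j i + A2 i j j + A3 i j) with hT
  have hS1 : 0 ≤ ∑ j, A1 j := Finset.sum_nonneg fun j _ => hA1 j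
  have hS2 : 0 ≤ ∑ i, ∑ j, (A2 i j i + A2 i j j + A3 i j) := Finset.sum_nonneg fun i _ =>
    Finset.sum_nonneg fun j _ => add_nonneg (add_nonneg (hA2 i j i) (hA2 i j j)) (hA3 i j)
  refine ⟨T, by positivity, fun u x B hu hB hb => ?_⟩
  have hb0 : |u x| ≤ B := hb none
  have hbi : ∀ i, |pd i u x| ≤ B := fun i => hb (some i)
  refine ⟨?_, ?_, fun i => ?_⟩
  · have e1 : (1 - ψ x) * comm s c u x = ∑ i, ∑ j, (((1 - ψ x) * s x i j * pd i c x) * pd j u x +
        ((1 - ψ x) * s x i j * pd j c x) * pd i u x +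
        ((1 - ψ x) * s x i j * pd i (pd j c) x) * u x) := by
      unfold comm
      rw [Finset.mul_sum]
      refine Finset.sum_congr rfl fun i _ => ?_
      rw [Finset.mul_sum]
      exact Finset.sum_congr rfl fun j _ => by ring
    rw [e1]
    calc _ ≤ ∑ i, ∑ j, (A2 i j i + A2 i j j + A3 i j) * B := by
          refine (Finset.abs_sum_le_sum_abs _ _).trans (Finset.sum_le_sum fun i _ => ?_)
          refine (Finset.abs_sum_le_sum_abs _ _).trans (Finset.sum_le_sum fun j _ => ?_)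
          refine (abs_add_three _ _ _).trans ?_
          rw [abs_mul _ (pd j u x), abs_mul _ (pd i u x), abs_mul _ (u x)]
          have b1 := mul_le_mul (a2 i j i x) (hbi j) (abs_nonneg _) (hA2 i j i)
          have b2 := mul_le_mul (a2 i j j x) (hbi i) (abs_nonneg _) (hA2 i j j)
          have b3 := mul_le_mul (a3 i j x) hb0 (abs_nonneg _) (hA3 i j)
          linarith
      _ = (∑ i, ∑ j, (A2 i j i + A2 i j j + A3 i j)) * B := by
          rw [Finset.sum_mul]
          exact Finset.sum_congr rfl fun i _ => by rw [Finset.sum_mul]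
      _ ≤ T * B := mul_le_mul_of_nonneg_right (by rw [hT]; linarith) hB
  · rw [abs_mul]
    calc |c x| * |u x| ≤ A0 * B := mul_le_mul (a0 x) hb0 (abs_nonneg _) hA0
      _ ≤ T * B := mul_le_mul_of_nonneg_right (by rw [hT]; linarith) hB
  · rw [pd_mul (hc.differentiable (by simp) x) hu i]
    refine (abs_add_le _ _).trans ?_
    rw [abs_mul, abs_mul]
    have b1 := mul_le_mul (a0 x) (hbi i) (abs_nonneg _) hA0
    have b2 := mul_le_mul hb0 (a1 i x) (abs_nonneg _) hB
    have b3 : A1 i ≤ ∑ j, A1 j := Finset.single_le_sum (fun j _ => hA1 j) (Finset.mem_univ i)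
    have b4 : (A0 + A1 i) * B ≤ T * B :=
      mul_le_mul_of_nonneg_right (by rw [hT]; linarith) hB
    linarith

end Vale.Agent.P088.HY.T3
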