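import Vale.Agent.P088.R2.H354.Fam
import Vale.Agent.P088.R2.H354.Spec3

/-!
# Restriction to the diagonal in the second variable only
-/

open MeasureTheory Set
open scoped ContDiff Matrix Topology

noncomputable section

namespace Vale.Agent.P088.HY.T3

open Vale.Agent.P088.LR G

variable {n : ℕ} {O P D X Y : Set (V n)}

/-- `L²` on the diagonal. -/
theorem diag_bd (hO : IsOpen O) {s : MF n} {r C : ℝ} (hI : IntE s O r C) (hC : 0 ≤ C)
    {d : ℕ} {g : Fin d → V n → ℝ} (hg : ∀ q, ContDiffOn ℝ ∞ (g q) O)
    (hgl : ∀ q, ∀ x ∈ O, Lv s (g q) x = 0) (hr : 0 < r) (hX : MeasurableSet X)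
    (hY : IsCompact Y) (hYO : Y ⊆ O) (hXY : ∀ x ∈ X, Metric.ball x r ⊆ Y)
    {a : Fin d → V n → ℝ} (ha : ∀ q, MemLp (a q) 2 (volume.restrict X)) {A : ℝ}
    (hb : ∀ y ∈ Y, (∫ x in X, (∑ q, g q y * a q x) ^ 2) ≤ A ^ 2) (o : Option (Fin n)) :
    IntegrableOn (fun x => (∑ q, a q x * jd o (g q) x) ^ 2) X ∧
      (∫ x in X, (∑ q, a q x * jd o (g q) x) ^ 2) ≤ C ^ 2 * (A ^ 2 * volume.real Y) := by
  have hgY : ∀ q, MemLp (g q) 2 (volume.restrict Y) := fun q =>
    memLp_P hY ((hg q).continuousOn.mono hYO)
  -- the kernel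
  set K : V n → V n → ℝ := fun x y => (∑ q, a q x * g q y) ^ 2 with hK
  have hKe : ∀ x y, K x y = ∑ q, ∑ q', (a q x * a q' x) * (g q y * g q' y) := by
    intro x y
    simp only [hK]
    rw [pow_two, Finset.sum_mul_sum]
    exact Finset.sum_congr rfl fun q _ => Finset.sum_congr rfl fun q' _ => by ring
  have haa : ∀ q q', Integrable (fun x => a q x * a q' x) (volume.restrict X) := fun q q' =>
    (ha q').integrable_mul (ha q) |>.congr (Filter.Eventually.of_forall fun x => by
      simp [mul_comm])
  have hgg : ∀ q q', Integrable (fun y => g q y * g q' y) (volume.restrict Y) := fun q q' =>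
    (hgY q').integrable_mul (hgY q) |>.congr (Filter.Eventually.of_forall fun x => by
      simp [mul_comm])
  have hKi : Integrable (Function.uncurry K) ((volume.restrict X).prod (volume.restrict Y)) := by
    have : Function.uncurry K = fun z : V n × V n =>
        ∑ q, ∑ q', (a q z.1 * a q' z.1) * (g q z.2 * g q' z.2) := by
      funext z
      exact hKe z.1 z.2
    rw [this]
    exact integrable_finsetSum _ fun q _ => integrable_finsetSum _ fun q' _ =>
      (haa q q').mul_prod (hgg q q')
  have hKx : ∀ x, Integrable (K x) (volume.restrict Y) := fun x => by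
    have : K x = fun y => ∑ q, ∑ q', (a q x * a q' x) * (g q y * g q' y) := funext (hKe x)
    rw [this]
    exact integrable_finsetSum _ fun q _ => integrable_finsetSum _ fun q' _ =>
      (hgg q q').const_mul _
  have hswap : ∫ x in X, ∫ y in Y, K x y = ∫ y in Y, ∫ x in X, K x y :=
    integral_integral_swap hKi
  have hΨi : Integrable (fun x => ∫ y in Y, K x y) (volume.restrict X) := hKi.integral_prod_left
  -- pointwise
  have hpt : ∀ x ∈ X, (∑ q, a q x * jd o (g q) x) ^ 2 ≤ C ^ 2 * ∫ y in Y, K x y := by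
    intro x hx
    have hp := (hXY x hx).trans hYO
    have hxO : x ∈ O := hp (Metric.mem_ball_self hr)
    have hs : ContDiffOn ℝ ∞ (fun y => ∑ q, a q x * g q y) O :=
      ContDiffOn.sum fun q _ => contDiffOn_const.mul (hg q)
    have h1 : |∑ q, a q x * jd o (g q) x| ≤ C * √(∫ y in Y, K x y) := by
      rw [← jd_sumO hO (fun q => a q x) hxO hg o]
      refine hI.le hC hp (hXY x hx) (hs.mono hp) (fun y hy => ?_) (hKx x) o (Real.sqrt_nonneg _) ?_
      · rw [Lv_sum hO (fun q => a q x) (hp hy) hg s]
        exact Finset.sum_eq_zero fun q _ => by rw [hgl q y (hp hy), mul_zero]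
      · rw [Real.sq_sqrt (integral_nonneg fun y => by simp only [hK]; positivity)]
    have h2 : 0 ≤ ∫ y in Y, K x y := integral_nonneg fun y => by simp only [hK]; positivity
    calc (∑ q, a q x * jd o (g q) x) ^ 2 = |∑ q, a q x * jd o (g q) x| ^ 2 := (sq_abs _).symm
      _ ≤ (C * √(∫ y in Y, K x y)) ^ 2 := pow_le_pow_left₀ (abs_nonneg _) h1 2
      _ = C ^ 2 * ∫ y in Y, K x y := by rw [mul_pow, Real.sq_sqrt h2]
  have hXO : ∀ x ∈ X, x ∈ O := fun x hx => hYO (hXY x hx (Metric.mem_ball_self hr))
  have hmeas : AEStronglyMeasurable (fun x => (∑ q, a q x * jd o (g q) x) ^ 2)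
      (volume.restrict X) := by
    refine AEStronglyMeasurable.pow ?_ 2
    refine Finset.aestronglyMeasurable_fun_sum _ fun q _ => ?_
    refine (ha q).1.mul ?_
    exact ((cd_jd hO (hg q) o).continuousOn.mono hXO).aestronglyMeasurable hX
  have hint : IntegrableOn (fun x => (∑ q, a q x * jd o (g q) x) ^ 2) X := by
    refine Integrable.mono' (hΨi.const_mul (C ^ 2)) hmeas ?_
    refine (ae_restrict_iff' hX).2 (Filter.Eventually.of_forall fun x hx => ?_)
    rw [Real.norm_eq_abs, abs_of_nonneg (sq_nonneg _)]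
    exact hpt x hx
  refine ⟨hint, ?_⟩
  calc (∫ x in X, (∑ q, a q x * jd o (g q) x) ^ 2) ≤ ∫ x in X, C ^ 2 * ∫ y in Y, K x y :=
        setIntegral_mono_on hint (hΨi.const_mul (C ^ 2)) hX hpt
    _ = C ^ 2 * ∫ y in Y, ∫ x in X, K x y := by rw [integral_const_mul, hswap]
    _ ≤ C ^ 2 * (A ^ 2 * volume.real Y) := by
        refine mul_le_mul_of_nonneg_left ?_ (sq_nonneg _)
        have h3 : ∀ y ∈ Y, ∫ x in X, K x y ≤ A ^ 2 := by
          intro y hy
          have := hb y hy
          refine le_trans (le_of_eq ?_) this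
          congr 1
          funext x
          simp only [hK]
          congr 1
          exact Finset.sum_congr rfl fun q _ => mul_comm _ _
        calc ∫ y in Y, ∫ x in X, K x y ≤ ∫ y in Y, A ^ 2 :=
              setIntegral_mono_on hKi.integral_prod_right (integrableOn_const hY.measure_lt_top.ne)
                hY.measurableSet h3
          _ = A ^ 2 * volume.real Y := by rw [setIntegral_const, smul_eq_mul, mul_comm]

/-- From `L²` to `L¹`. -/
theorem l1_bd (hXf : volume X < ⊤) {E c : V n → ℝ} {M B : ℝ} (hM : 0 ≤ M)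
    (hc : ∀ x ∈ X, |c x| ≤ M) (hX : MeasurableSet X) (hE : IntegrableOn (fun x => E x ^ 2) X)
    (hB : 0 < B) (hb : (∫ x in X, E x ^ 2) ≤ B ^ 2) :
    |∫ x in X, c x * E x| ≤ M * ((1 + volume.real X) * B) := by
  have hi : IntegrableOn (fun x => M * (E x ^ 2 / B + B)) X :=
    ((hE.div_const B).add (integrableOn_const hXf.ne)).const_mul M
  have h1 : ∀ x ∈ X, |c x * E x| ≤ M * (E x ^ 2 / B + B) := by
    intro x hx
    rw [abs_mul]
    refine mul_le_mul (hc x hx) ?_ (abs_nonneg _) hM
    have h2 : |E x| * B ≤ E x ^ 2 + B ^ 2 := by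
      rw [← sq_abs (E x)]
      nlinarith [sq_nonneg (|E x| - B), abs_nonneg (E x), mul_nonneg (abs_nonneg (E x)) hB.le]
    calc |E x| = |E x| * B / B := by field_simp
      _ ≤ (E x ^ 2 + B ^ 2) / B := div_le_div_of_nonneg_right h2 hB.le
      _ = E x ^ 2 / B + B := by field_simp
  calc |∫ x in X, c x * E x| ≤ ∫ x in X, |c x * E x| := abs_integral_le_integral_abs
    _ ≤ ∫ x in X, M * (E x ^ 2 / B + B) := by
        refine integral_mono_of_nonneg (Filter.Eventually.of_forall fun x => abs_nonneg _) hi ?_
        exact (ae_restrict_iff' hX).2 (Filter.Eventually.of_forall h1)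
    _ = M * ((∫ x in X, E x ^ 2) / B + B * volume.real X) := by
        rw [integral_const_mul, integral_add (hE.div_const B) (integrableOn_const hXf.ne),
          integral_div, setIntegral_const, smul_eq_mul, mul_comm B]
    _ ≤ M * (B ^ 2 / B + B * volume.real X) := by gcongr
    _ = M * ((1 + volume.real X) * B) := by field_simp

/-! ## Integration by parts for functions of class `C¹` -/

theorem int_pd_zero1 {F : V n → ℝ} (hF : ContDiff ℝ 1 F) (hcs : HasCompactSupport F)
    (i : Fin n) : Integrable (pd i F) ∧ ∫ x, pd i F x = 0 := by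
  have hcs' : HasCompactSupport (pd i F) := hcs.fderiv_apply ℝ (Pi.single i 1)
  have hc : Continuous (pd i F) := by
    have h1 : ContDiff ℝ 0 (pd i F) := (hF.fderiv_right (by simp)).clm_apply contDiff_const
    exact h1.continuous
  have hint : Integrable (pd i F) := hc.integrable_of_hasCompactSupport hcs'
  refine ⟨hint, ?_⟩
  have hintG : Integrable F := hF.continuous.integrable_of_hasCompactSupport hcs
  have h1 := integral_mul_fderiv_eq_neg_fderiv_mul_of_integrable (μ := (volume : Measure (V n)))
    (f := fun _ : V n => (1 : ℝ)) (g := F) (v := Pi.single i 1) (by simp)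
    (by
      simp only [one_mul]
      exact hint) (by
      simp only [one_mul]
      exact hintG) (fun x _ => differentiableAt_const _)
    (fun x _ => (hF.differentiable (by simp)) x)
  simp only [one_mul, fderiv_fun_const, Pi.zero_apply, zero_apply, zero_mul, integral_zero,
    neg_zero] at h1
  exact h1

theorem cut_mulC1 (hD : IsOpen D) {ch : V n → ℝ} (hc : ContDiff ℝ ∞ ch)
    (hcs : tsupport ch ⊆ D) {g : V n → ℝ} (hg : ContDiffOn ℝ 1 g D) :
    ContDiff ℝ 1 fun x : V n => ch x * g x := by
  rw [contDiff_iff_contDiffAt]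
  intro x
  by_cases hx : x ∈ D
  · exact (hc.contDiffAt.of_le (by simp)).mul (hg.contDiffAt (hD.mem_nhds hx))
  · have hx' : x ∉ tsupport ch := fun h => hx (hcs h)
    have h1 : (tsupport ch)ᶜ ∈ 𝓝 x := (isClosed_tsupport ch).isOpen_compl.mem_nhds hx'
    have h2 : (fun z : V n => ch z * g z) =ᶠ[𝓝 x] fun _ => 0 := by
      filter_upwards [h1] with z hz
      rw [image_eq_zero_of_notMem_tsupport hz, zero_mul]
    exact contDiffAt_const.congr_of_eventuallyEq h2

/-- `∫ s(∇w, ∇g) χ = - ∫ w s(∇g, ∇χ)` if `L g = 0` near the support of `χ`. -/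
theorem ibp_w (hD : IsOpen D) (hO : IsOpen O) (hOD : O ⊆ D) {s : MF n} (hs : SmM s)
    (hsy : ∀ x, (s x).IsSymm) (hd : ∀ x ∈ O, ∀ j, ∑ i, pd i (fun y => s y i j) x = 0)
    {χ : V n → ℝ} (hχ : ContDiff ℝ ∞ χ) (hχc : HasCompactSupport χ) (hχO : tsupport χ ⊆ O)
    {w g : V n → ℝ} (hw : ContDiffOn ℝ 1 w D) (hg : ContDiffOn ℝ ∞ g O)
    (hgl : ∀ x ∈ O, Lv s g x = 0) :
    (∫ x in D, ∑ i, ∑ j, s x i j * (pd i w x * (χ x * pd j g x))) =
      -∫ x in D, ∑ i, ∑ j, s x i j * (w x * (pd i χ x * pd j g x)) := by
  set Z : Fin n → V n → ℝ := fun i x => χ x * fx s g i x with hZ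
  have hZs : ∀ i, ContDiff ℝ ∞ (Z i) := fun i => cut_mul1 hO hχ hχO (cd_fx hO hs hg i)
  have hZt : ∀ i, tsupport (Z i) ⊆ tsupport χ := fun i =>
    closure_mono fun y hy => left_ne_zero_of_mul hy
  have hZc : ∀ i, HasCompactSupport (Z i) := fun i => hχc.mul_right
  have hWs : ∀ i, ContDiff ℝ 1 fun x => Z i x * w x := fun i =>
    cut_mulC1 hD (hZs i) ((hZt i).trans (hχO.trans hOD)) hw
  have hWc : ∀ i, HasCompactSupport fun x => Z i x * w x := fun i => (hZc i).mul_right
  have h0 : ∫ x, ∑ i, pd i (fun x => Z i x * w x) x = 0 := by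
    rw [integral_finsetSum _ fun i _ => (int_pd_zero1 (hWs i) (hWc i) i).1]
    exact Finset.sum_eq_zero fun i _ => (int_pd_zero1 (hWs i) (hWc i) i).2
  have hoff : ∀ x ∉ D, ∑ i, pd i (fun x => Z i x * w x) x = 0 := by
    intro x hx
    refine Finset.sum_eq_zero fun i _ => ?_
    have hx' : x ∉ tsupport χ := fun h => hx (hOD (hχO h))
    have hn : (tsupport χ)ᶜ ∈ 𝓝 x := (isClosed_tsupport χ).isOpen_compl.mem_nhds hx'
    have e1 : (fun x => Z i x * w x) =ᶠ[𝓝 x] fun _ => 0 :=
      Filter.eventually_of_mem hn fun y hy => by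
        show χ y * fx s g i y * w y = 0
        rw [image_eq_zero_of_notMem_tsupport hy]; ring
    unfold pd; rw [e1.fderiv_eq]; simp
  rw [← setIntegral_eq_integral_of_forall_compl_eq_zero hoff] at h0
  have hpt : ∀ x ∈ D, ∑ i, pd i (fun x => Z i x * w x) x =
      (∑ i, ∑ j, s x i j * (pd i w x * (χ x * pd j g x))) +
      ∑ i, ∑ j, s x i j * (w x * (pd i χ x * pd j g x)) := by
    intro x hx
    have dw : DifferentiableAt ℝ w x := (hw.contDiffAt (hD.mem_nhds hx)).differentiableAt (by simp)
    have dZ : ∀ i, DifferentiableAt ℝ (Z i) x := fun i => (hZs i).differentiable (by simp) x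
    have e1 : ∀ i, pd i (fun x => Z i x * w x) x = Z i x * pd i w x + w x * pd i (Z i) x :=
      fun i => pd_mul (dZ i) dw i
    simp only [e1, Finset.sum_add_distrib, ← Finset.mul_sum]
    have e2 : ∑ i, Z i x * pd i w x = ∑ i, ∑ j, s x i j * (pd i w x * (χ x * pd j g x)) := by
      refine Finset.sum_congr rfl fun i _ => ?_
      simp only [hZ, fx, Finset.mul_sum, Finset.sum_mul]
      exact Finset.sum_congr rfl fun j _ => by rw [(hsy x).apply i j]; ring
    have e3 : ∑ i, pd i (Z i) x = ∑ i, ∑ j, s x i j * (pd i χ x * pd j g x) := by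
      by_cases hxO : x ∈ O
      · have e4 : ∀ i, pd i (Z i) x = χ x * pd i (fx s g i) x + fx s g i x * pd i χ x := fun i =>
          pd_mul (hχ.differentiable (by simp) x) (dAt1 hO (cd_fx hO hs hg i) hxO) i
        simp only [e4, Finset.sum_add_distrib, ← Finset.mul_sum]
        rw [div_fx hO hs hsy hd hg hxO, hgl x hxO, mul_zero, zero_add]
        refine Finset.sum_congr rfl fun i _ => ?_
        simp only [fx, Finset.sum_mul]
        exact Finset.sum_congr rfl fun j _ => by rw [(hsy x).apply i j]; ring
      · have hx' : x ∉ tsupport χ := fun h => hxO (hχO h)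
        have hn : (tsupport χ)ᶜ ∈ 𝓝 x := (isClosed_tsupport χ).isOpen_compl.mem_nhds hx'
        have e0 : ∀ y ∈ (tsupport χ)ᶜ, χ y = 0 := fun y hy => image_eq_zero_of_notMem_tsupport hy
        have e4 : ∀ i, pd i (Z i) x = 0 := fun i => by
          have : Z i =ᶠ[𝓝 x] fun _ => 0 := Filter.eventually_of_mem hn fun y hy => by
            show χ y * fx s g i y = 0
            rw [e0 y hy, zero_mul]
          unfold pd; rw [this.fderiv_eq]; simp
        have e5 : ∀ i, pd i χ x = 0 := fun i => by
          have : χ =ᶠ[𝓝 x] fun _ => 0 := Filter.eventually_of_mem hn e0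
          unfold pd; rw [this.fderiv_eq]; simp
        simp [e4, e5]
    rw [e2, e3]
    congr 1
    rw [Finset.mul_sum]
    refine Finset.sum_congr rfl fun i _ => ?_
    rw [Finset.mul_sum]
    exact Finset.sum_congr rfl fun j _ => by ring
  rw [setIntegral_congr_fun hD.measurableSet hpt, integral_add] at h0
  · linarith
  · -- integrability of the two parts
    have hc : ∀ i j, Integrable fun x => (χ x * (s x i j * pd j g x)) * pd i w x := by
      intro i j
      have a1 : ContDiff ℝ ∞ fun x => χ x * (s x i j * pd j g x) :=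
        cut_mul1 hO hχ hχO ((hs i j).contDiffOn.mul (contDiffOn_pd hO hg j))
      have a2 : tsupport (fun x => χ x * (s x i j * pd j g x)) ⊆ D :=
        (closure_mono fun y hy => left_ne_zero_of_mul hy).trans (hχO.trans hOD)
      have a3 : HasCompactSupport fun x => χ x * (s x i j * pd j g x) := hχc.mul_right
      have a4 : ContinuousOn (pd i w) D := by
        have := hw.continuousOn_fderiv_of_isOpen hD (by simp)
        exact this.clm_apply continuousOn_const
      have a5 : Continuous fun x => (χ x * (s x i j * pd j g x)) * pd i w x := by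
        rw [continuous_iff_continuousAt]
        intro x
        by_cases hx : x ∈ D
        · exact a1.continuous.continuousAt.mul (a4.continuousAt (hD.mem_nhds hx))
        · have hx' : x ∉ tsupport (fun x => χ x * (s x i j * pd j g x)) := fun h => hx (a2 h)
          have hn := (isClosed_tsupport (fun x => χ x * (s x i j * pd j g x))).isOpen_compl.mem_nhds
            hx'
          have : (fun x => (χ x * (s x i j * pd j g x)) * pd i w x) =ᶠ[𝓝 x] fun _ => 0 :=
            Filter.eventually_of_mem hn fun y hy => by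
              show (χ y * (s y i j * pd j g y)) * pd i w y = 0
              have h6 : χ y * (s y i j * pd j g y) = 0 :=
                image_eq_zero_of_notMem_tsupport (f := fun x => χ x * (s x i j * pd j g x)) hy
              rw [h6, zero_mul]
          exact continuousAt_const.congr this.symm
      exact a5.integrable_of_hasCompactSupport a3.mul_right
    have : Integrable fun x => ∑ i, ∑ j, s x i j * (pd i w x * (χ x * pd j g x)) := by
      refine integrable_finsetSum _ fun i _ => integrable_finsetSum _ fun j _ => ?_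
      exact (hc i j).congr (Filter.Eventually.of_forall fun x => by
        show (χ x * (s x i j * pd j g x)) * pd i w x = s x i j * (pd i w x * (χ x * pd j g x))
        ring)
    exact this.integrableOn
  · have hc : ∀ i j, Integrable fun x => (pd i χ x * (s x i j * pd j g x)) * w x := by
      intro i j
      have hcs : tsupport (pd i χ) ⊆ O := (tsupport_fderiv_apply_subset ℝ _).trans hχO
      have hcc : HasCompactSupport (pd i χ) := hχc.fderiv_apply ℝ (Pi.single i 1)
      have a1 : ContDiff ℝ ∞ fun x => pd i χ x * (s x i j * pd j g x) :=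
        cut_mul1 hO ((hχ.fderiv_right (by simp)).clm_apply contDiff_const) hcs
          ((hs i j).contDiffOn.mul (contDiffOn_pd hO hg j))
      have a2 : tsupport (fun x => pd i χ x * (s x i j * pd j g x)) ⊆ D :=
        (closure_mono fun y hy => left_ne_zero_of_mul hy).trans (hcs.trans hOD)
      have a3 : HasCompactSupport fun x => pd i χ x * (s x i j * pd j g x) := hcc.mul_right
      exact (cut_mulC1 hD a1 a2 hw).continuous.integrable_of_hasCompactSupport a3.mul_right
    have : Integrable fun x => ∑ i, ∑ j, s x i j * (w x * (pd i χ x * pd j g x)) := by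
      refine integrable_finsetSum _ fun i _ => integrable_finsetSum _ fun j _ => ?_
      exact (hc i j).congr (Filter.Eventually.of_forall fun x => by
        show (pd i χ x * (s x i j * pd j g x)) * w x = s x i j * (w x * (pd i χ x * pd j g x))
        ring)
    exact this.integrableOn

end Vale.Agent.P088.HY.T3
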