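import Vale.Agent.P088.R2.H354.Cut

/-!
# Interior estimates for finite families
-/

open MeasureTheory Set
open scoped ContDiff Matrix Topology

noncomputable section

namespace Vale.Agent.P088.HY.T3

open Vale.Agent.P088.LR G

variable {n : ℕ} {O P D Gs Kc : Set (V n)}

/-- The square root of the volume of a ball. -/
def vb (n : ℕ) (r : ℝ) : ℝ := √(volume.real (Metric.ball (0 : V n) r))

theorem vb_nonneg (r : ℝ) : 0 ≤ vb n r := Real.sqrt_nonneg _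

theorem vb_eq (p : V n) (r : ℝ) : √(volume.real (Metric.ball p r)) = vb n r := by
  unfold vb Measure.real
  rw [Measure.addHaar_ball_center]

/-- The derivatives in `y` of a combination. -/
theorem fam_y (hO : IsOpen O) {s : MF n} {r C : ℝ} (hI : IntE s O r C) (hC : 0 ≤ C)
    {d : ℕ} {g : Fin d → V n → ℝ} (hg : ∀ q, ContDiffOn ℝ ∞ (g q) O)
    (hgl : ∀ q, ∀ x ∈ O, Lv s (g q) x = 0) {p : V n} (hp : Metric.ball p r ⊆ O) (hr : 0 < r)
    {a : Fin d → ℝ} {A : ℝ} (hA : 0 ≤ A)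
    (hb : ∀ y ∈ Metric.ball p r, |∑ q, a q * g q y| ≤ A) (o : Option (Fin n)) :
    |∑ q, a q * jd o (g q) p| ≤ C * (A * vb n r) := by
  have hpO : p ∈ O := hp (Metric.mem_ball_self hr)
  rw [← jd_sumO hO a hpO hg o, ← vb_eq p r]
  refine hI.sup hC hp ?_ (fun x hx => ?_) o hA hb
  · exact (ContDiffOn.sum fun q _ => contDiffOn_const.mul (hg q)).mono hp
  · rw [Lv_sum hO a (hp hx) hg s]
    exact Finset.sum_eq_zero fun q _ => by rw [hgl q x (hp hx), mul_zero]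

/-- The combination of `f - v`. -/
theorem fam_f (hD : IsOpen D) {s : MF n} {r C : ℝ} (hI : IntE s D r C) (hC : 0 ≤ C)
    {d : ℕ} {f v : Fin d → V n → ℝ} (hf : ∀ q, ContDiffOn ℝ ∞ (f q) D)
    (hv : ∀ q, ContDiffOn ℝ ∞ (v q) D) {p : V n} (hr : 0 < r) (hp : Metric.ball p r ⊆ D \ Gs)
    (hfl : ∀ q, ∀ x ∈ Metric.ball p r, Lv s (f q) x = 0) (hvl : ∀ q, ∀ x ∈ D, Lv s (v q) x = 0)
    {c : Fin d → ℝ} (hi : IntegrableOn (fun x => (∑ q, c q * (f q x - v q x)) ^ 2) (D \ Gs))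
    {A : ℝ} (hA : 0 ≤ A) (hb : ∫ x in D \ Gs, (∑ q, c q * (f q x - v q x)) ^ 2 ≤ A ^ 2)
    (o : Option (Fin n)) : |∑ q, c q * (jd o (f q) p - jd o (v q) p)| ≤ C * A := by
  have hpD : Metric.ball p r ⊆ D := hp.trans sdiff_subset
  have hp0 : p ∈ D := hpD (Metric.mem_ball_self hr)
  have hs : ∀ q, ContDiffOn ℝ ∞ (fun x => f q x - v q x) D := fun q => (hf q).sub (hv q)
  have h1 : ∑ q, c q * (jd o (f q) p - jd o (v q) p) =
      jd o (fun x => ∑ q, c q * (f q x - v q x)) p := by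
    rw [jd_sumO hD c hp0 hs o]
    exact Finset.sum_congr rfl fun q _ => by rw [jd_sub hD (hf q) (hv q) hp0 o]
  rw [h1]
  refine hI.le hC hpD hp ?_ (fun x hx => ?_) hi o hA hb
  · exact (ContDiffOn.sum fun q _ => contDiffOn_const.mul (hs q)).mono hpD
  · rw [Lv_sum hD c (hpD hx) hs s]
    refine Finset.sum_eq_zero fun q _ => ?_
    rw [Lv_sub hD (hf q) (hv q) (hpD hx), hfl q x hx, hvl q x (hpD hx), sub_zero, mul_zero]

/-- The combination of `v + w`. -/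
theorem fam_w (hD : IsOpen D) {s : MF n} {r C : ℝ} (hI : IntE s D r C) (hC : 0 ≤ C)
    {d : ℕ} {f v w : Fin d → V n → ℝ} (hf : ∀ q, ContDiffOn ℝ ∞ (f q) D)
    (hv : ∀ q, ContDiffOn ℝ ∞ (v q) D) (hw : ∀ q, ContDiffOn ℝ ∞ (w q) D) {p : V n}
    (hr : 0 < r) (hp : Metric.ball p r ⊆ D \ Gs)
    (hvw : ∀ q, ∀ x ∈ D, Lv s (fun x => v q x + w q x) x = 0)
    {c : Fin d → ℝ} (hi : IntegrableOn (fun x => (∑ q, c q * (f q x - v q x)) ^ 2) (D \ Gs))
    (hi2 : IntegrableOn (fun x => (∑ q, c q * f q x) ^ 2) (D \ Gs))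
    (hi3 : IntegrableOn (fun x => (∑ q, c q * w q x) ^ 2) D)
    {A B : ℝ} (hA : 0 ≤ A) (hB : 0 ≤ B)
    (hb : ∫ x in D \ Gs, (∑ q, c q * (f q x - v q x)) ^ 2 ≤ A ^ 2)
    (hb2 : ∫ x in D \ Gs, (∑ q, c q * f q x) ^ 2 ≤ B ^ 2)
    (hb3 : ∫ x in D, (∑ q, c q * w q x) ^ 2 ≤ A ^ 2)
    (o : Option (Fin n)) :
    |∑ q, c q * (jd o (v q) p + jd o (w q) p)| ≤ C * (2 * (B + A + A)) := by
  have hpD : Metric.ball p r ⊆ D := hp.trans sdiff_subset
  have hp0 : p ∈ D := hpD (Metric.mem_ball_self hr)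
  have hs : ∀ q, ContDiffOn ℝ ∞ (fun x => v q x + w q x) D := fun q => (hv q).add (hw q)
  have h1 : ∑ q, c q * (jd o (v q) p + jd o (w q) p) =
      jd o (fun x => ∑ q, c q * (v q x + w q x)) p := by
    rw [jd_sumO hD c hp0 hs o]
    exact Finset.sum_congr rfl fun q _ => by rw [jd_add hD (hv q) (hw q) hp0 o]
  rw [h1]
  have hu : ContDiffOn ℝ ∞ (fun x => ∑ q, c q * (v q x + w q x)) D :=
    ContDiffOn.sum fun q _ => contDiffOn_const.mul (hs q)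
  have j1 := hi.mono_set hp
  have j2 := hi2.mono_set hp
  have j3 := hi3.mono_set hpD
  have hpt : ∀ x, (∑ q, c q * (v q x + w q x)) ^ 2 ≤ 3 * ((∑ q, c q * f q x) ^ 2 +
      (∑ q, c q * (f q x - v q x)) ^ 2 + (∑ q, c q * w q x) ^ 2) := by
    intro x
    have e : ∑ q, c q * (v q x + w q x) =
        ∑ q, c q * f q x - ∑ q, c q * (f q x - v q x) + ∑ q, c q * w q x := by
      rw [← Finset.sum_sub_distrib, ← Finset.sum_add_distrib]
      exact Finset.sum_congr rfl fun q _ => by ring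
    rw [e]
    nlinarith [sq_nonneg (∑ q, c q * f q x + ∑ q, c q * (f q x - v q x)),
      sq_nonneg (∑ q, c q * f q x - ∑ q, c q * w q x),
      sq_nonneg (∑ q, c q * (f q x - v q x) + ∑ q, c q * w q x)]
  have j4 : IntegrableOn (fun x => 3 * ((∑ q, c q * f q x) ^ 2 +
      (∑ q, c q * (f q x - v q x)) ^ 2 + (∑ q, c q * w q x) ^ 2)) (Metric.ball p r) :=
    ((j2.add j1).add j3).const_mul 3
  have hui : IntegrableOn (fun x => (∑ q, c q * (v q x + w q x)) ^ 2) (Metric.ball p r) := by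
    refine Integrable.mono' j4 (((hu.continuousOn.mono hpD).pow 2).aestronglyMeasurable
      measurableSet_ball) (Filter.Eventually.of_forall fun x => ?_)
    rw [Real.norm_eq_abs, abs_of_nonneg (sq_nonneg _)]
    exact hpt x
  refine hI.le hC hpD (subset_refl _) (hu.mono hpD) (fun x hx => ?_) hui o (by positivity) ?_
  · rw [Lv_sum hD c (hpD hx) hs s]
    exact Finset.sum_eq_zero fun q _ => by rw [hvw q x (hpD hx), mul_zero]
  · have k1 : ∫ x in Metric.ball p r, (∑ q, c q * (f q x - v q x)) ^ 2 ≤ A ^ 2 :=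
      (setIntegral_mono_set hi (Filter.Eventually.of_forall fun x => sq_nonneg _)
        hp.eventuallyLE).trans hb
    have k2 : ∫ x in Metric.ball p r, (∑ q, c q * f q x) ^ 2 ≤ B ^ 2 :=
      (setIntegral_mono_set hi2 (Filter.Eventually.of_forall fun x => sq_nonneg _)
        hp.eventuallyLE).trans hb2
    have k3 : ∫ x in Metric.ball p r, (∑ q, c q * w q x) ^ 2 ≤ A ^ 2 :=
      (setIntegral_mono_set hi3 (Filter.Eventually.of_forall fun x => sq_nonneg _)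
        hpD.eventuallyLE).trans hb3
    calc ∫ x in Metric.ball p r, (∑ q, c q * (v q x + w q x)) ^ 2 ≤
          ∫ x in Metric.ball p r, 3 * ((∑ q, c q * f q x) ^ 2 +
            (∑ q, c q * (f q x - v q x)) ^ 2 + (∑ q, c q * w q x) ^ 2) :=
          setIntegral_mono hui j4 hpt
      _ = 3 * ((∫ x in Metric.ball p r, (∑ q, c q * f q x) ^ 2) +
            (∫ x in Metric.ball p r, (∑ q, c q * (f q x - v q x)) ^ 2) +
            ∫ x in Metric.ball p r, (∑ q, c q * w q x) ^ 2) := by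
          have j12 : IntegrableOn (fun x => (∑ q, c q * f q x) ^ 2 +
              (∑ q, c q * (f q x - v q x)) ^ 2) (Metric.ball p r) := j2.add j1
          rw [integral_const_mul, integral_add j12 j3, integral_add j2 j1]
      _ ≤ (2 * (B + A + A)) ^ 2 := by nlinarith [mul_nonneg hA hB]

/-- The first derivatives in `x` of a solution in the first variable. -/
theorem kx_bd {s : MF n} (hO : IsOpen O) {r C : ℝ} (hI : IntE s O r C) (hC : 0 ≤ C)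
    {k : VV n → ℝ} (hk : ContDiffOn ℝ ∞ k (O ×ˢ O)) (h1 : ∀ z ∈ O ×ˢ O, Lx s k z = 0)
    {p y : V n} (hr : 0 < r) (hp : Metric.ball p r ⊆ O) (hy : y ∈ O) {A : ℝ} (hA : 0 ≤ A)
    (hb : ∀ x ∈ Metric.ball p r, |k (x, y)| ≤ A) (o : Option (Fin n)) :
    |jx o k (p, y)| ≤ C * (A * vb n r) := by
  rw [← jd_slx hO hk (hp (Metric.mem_ball_self hr)) hy o, ← vb_eq p r]
  refine hI.sup hC hp ((slx hk hy).mono hp) (fun x hx => ?_) o hA hb
  rw [Lv_slx hO hk s (hp hx) hy]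
  exact h1 _ ⟨hp hx, hy⟩

theorem rx_bd {s : MF n} (hO : IsOpen O) (hP : IsCompact P) (hPO : P ⊆ O) {r C : ℝ}
    (hI : IntE s O r C) (hC : 0 ≤ C)
    {R : VV n → ℝ} (hR : ContDiffOn ℝ ∞ R (O ×ˢ O)) (h1 : ∀ z ∈ O ×ˢ O, Lx s R z = 0)
    {p y : V n} (hr : 0 < r) (hp : Metric.ball p r ⊆ P) (hy : y ∈ P) {δ : ℝ} (hδ : 0 ≤ δ)
    (hb : ∫ x in P, R (x, y) ^ 2 ≤ δ ^ 2) (o : Option (Fin n)) :
    |jx o R (p, y)| ≤ C * δ := by
  have hpO := hp.trans hPO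
  rw [← jd_slx hO hR (hpO (Metric.mem_ball_self hr)) (hPO hy) o]
  refine hI.le hC hpO hp ((slx hR (hPO hy)).mono hpO) (fun x hx => ?_) ?_ o hδ hb
  · rw [Lv_slx hO hR s (hpO hx) (hPO hy)]
    exact h1 _ ⟨hpO hx, hPO hy⟩
  · exact (((slx hR (hPO hy)).continuousOn.mono hPO).pow 2).integrableOn_compact hP

theorem rxy_bd {s₁ s₂ : MF n} (hO : IsOpen O) (hP : IsCompact P) (hPO : P ⊆ O) {r C : ℝ}
    (hI₁ : IntE s₁ O r C) (hI₂ : IntE s₂ O r C) (hC : 0 ≤ C)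
    {R : VV n → ℝ} (hR : ContDiffOn ℝ ∞ R (O ×ˢ O)) (h1 : ∀ z ∈ O ×ˢ O, Lx s₁ R z = 0)
    (h2 : ∀ z ∈ O ×ˢ O, Ly s₂ R z = 0)
    {p : V n} (hr : 0 < r) (hp : Metric.ball p r ⊆ P) {δ : ℝ} (hδ : 0 ≤ δ)
    (hb : ∀ y ∈ P, ∫ x in P, R (x, y) ^ 2 ≤ δ ^ 2) (o o' : Option (Fin n)) :
    |jx o (jy o' R) (p, p)| ≤ C * (C * δ * vb n r) := by
  have hpO := hp.trans hPO
  have hpp : p ∈ O := hpO (Metric.mem_ball_self hr)
  have hx := cd_jx hO hR o
  rw [jx_jyO hO hR ⟨hpp, hpp⟩, ← jd_sly hO hx hpp hpp o', ← vb_eq p r]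
  refine hI₂.sup hC hpO ((sly hx hpp).mono hpO) (fun y hy => ?_) o' (by positivity)
    (fun y hy => rx_bd hO hP hPO hI₁ hC hR h1 hr hp (hp hy) hδ (hb y (hp hy)) o)
  rw [Lv_sly hO hx s₂ hpp (hpO hy)]
  exact Ly_dxO hO hR h2 o _ ⟨hpp, hpO hy⟩

end Vale.Agent.P088.HY.T3
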