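import Vale.Agent.P088.R2.H354.Main

/-!
# The bound by the far layer: the theorem
-/

open MeasureTheory Set
open scoped ContDiff Matrix Topology

noncomputable section

namespace Vale.Agent.P088.HY.T3

open Vale.Agent.P088.LR G

variable {n : ℕ} {s₁ s₂ : MF n} {D Gm O P Fa Fb : Set (V n)} {χ η ψ : V n → ℝ} {r C : ℝ}
  {k R : VV n → ℝ} {δ A B : ℝ} {d : ℕ} {e g w : Fin d → V n → ℝ} {dv : Fin d → Fin n → V n → ℝ}

theorem cf_mem (hG : Geo s₁ s₂ D Gm O P Fa Fb χ η ψ r C) (hA : Apr s₁ s₂ O P k R δ e g)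
    (X : Set (V n)) (q : Fin d) (i : Fin n) : MemLp (pd i (cf η e q)) 2 (volume.restrict X) := by
  have h1 : ContDiff ℝ ∞ (pd i (cf η e q)) :=
    ((cf_s hG hA q).fderiv_right (by simp)).clm_apply contDiff_const
  have h2 : HasCompactSupport (pd i (cf η e q)) := (cf_c hG q).fderiv_apply ℝ (Pi.single i 1)
  exact (h1.continuous.memLp_of_hasCompactSupport h2).restrict X

theorem bE (hG : Geo s₁ s₂ D Gm O P Fa Fb χ η ψ r C) (hA : Apr s₁ s₂ O P k R δ e g)
    (hT : Tra s₁ s₂ D Gm P Fb η A B e g w dv) (i : Fin n) {y : V n} (hy : y ∈ P) :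
    (∫ x in X1 χ Gm, (∑ q, g q y * (dv q i x - pd i (cf η e q) x)) ^ 2) ≤ A ^ 2 :=
  (mono_one (X1_D hG) (a := fun q i x => dv q i x - pd i (cf η e q) x)
    (fun q i => (hT.dl q i).sub (cf_mem hG hA _ q i)) (fun q => g q y) i).trans (hT.b1 y hy)

theorem bW (hG : Geo s₁ s₂ D Gm O P Fa Fb χ η ψ r C)
    (hT : Tra s₁ s₂ D Gm P Fb η A B e g w dv) {y : V n} (hy : y ∈ Fb) :
    (∫ x in X2 χ Gm, (∑ q, g q y * w q x) ^ 2) ≤ A ^ 2 ∧
      ∀ i, (∫ x in X2 χ Gm, (∑ q, g q y * pd i (w q) x) ^ 2) ≤ A ^ 2 := by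
  have hX : X2 χ Gm ⊆ D := fun x hx => (X1_D hG (X2_sub hx)).1
  have i1 := sq_int (X := D) hT.wl (fun q => g q y)
  have i2 : ∀ i, IntegrableOn (fun x => (∑ q, g q y * pd i (w q) x) ^ 2) D := fun i =>
    sq_int (fun q => hT.wl1 q i) (fun q => g q y)
  have i3 : IntegrableOn (fun x => (∑ q, g q y * w q x) ^ 2 +
      ∑ i, (∑ q, g q y * pd i (w q) x) ^ 2) D := i1.add (integrable_finsetSum _ fun i _ => i2 i)
  refine ⟨?_, fun i => ?_⟩
  · refine (mono_sq hX i1 fun x => sq_nonneg _).trans (le_trans ?_ (hT.b2 y hy))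
    refine setIntegral_mono i1 i3 fun x => ?_
    have : 0 ≤ ∑ i, (∑ q, g q y * pd i (w q) x) ^ 2 := Finset.sum_nonneg fun i _ => sq_nonneg _
    show (∑ q, g q y * w q x) ^ 2 ≤ _
    linarith
  · refine (mono_sq hX (i2 i) fun x => sq_nonneg _).trans (le_trans ?_ (hT.b2 y hy))
    refine setIntegral_mono (i2 i) i3 fun x => ?_
    have h1 : (∑ q, g q y * pd i (w q) x) ^ 2 ≤ ∑ i, (∑ q, g q y * pd i (w q) x) ^ 2 :=
      Finset.single_le_sum (f := fun i => (∑ q, g q y * pd i (w q) x) ^ 2)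
        (fun i _ => sq_nonneg _) (Finset.mem_univ i)
    have h2 := sq_nonneg (∑ q, g q y * w q x)
    show (∑ q, g q y * pd i (w q) x) ^ 2 ≤ _
    linarith

theorem bV (hG : Geo s₁ s₂ D Gm O P Fa Fb χ η ψ r C) (hA : Apr s₁ s₂ O P k R δ e g)
    (hT : Tra s₁ s₂ D Gm P Fb η A B e g w dv) (hA0 : 0 ≤ A) (hB0 : 0 ≤ B) (i : Fin n) {y : V n}
    (hy : y ∈ Fb) : (∫ x in X2 χ Gm, (∑ q, g q y * dv q i x) ^ 2) ≤
      (2 * (A + (n + 1) * B)) ^ 2 := by
  have hX : X2 χ Gm ⊆ D \ Gm := X2_sub.trans (X1_D hG)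
  have m1 : ∀ q i, MemLp (fun x => dv q i x - pd i (cf η e q) x) 2 (volume.restrict (D \ Gm)) :=
    fun q i => (hT.dl q i).sub (cf_mem hG hA _ q i)
  have m2 : ∀ q i, MemLp (pd i (cf η e q)) 2 (volume.restrict (D \ Gm)) :=
    fun q i => cf_mem hG hA _ q i
  have j1 := (sq_int (fun q => m1 q i) (fun q => g q y)).mono_set hX
  have j2 := (sq_int (fun q => m2 q i) (fun q => g q y)).mono_set hX
  have j3 := (sq_int (fun q => hT.dl q i) (fun q => g q y)).mono_set hX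
  have b1 : (∫ x in X2 χ Gm, (∑ q, g q y * (dv q i x - pd i (cf η e q) x)) ^ 2) ≤ A ^ 2 :=
    (mono_one hX (a := fun q i x => dv q i x - pd i (cf η e q) x) m1 (fun q => g q y) i).trans
      (hT.b1 y (hG.fbP hy))
  have b2 : (∫ x in X2 χ Gm, (∑ q, g q y * pd i (cf η e q) x) ^ 2) ≤ (n + 1) * B ^ 2 := by
    refine (mono_one hX (a := fun q i => pd i (cf η e q)) m2 (fun q => g q y) i).trans
      (le_trans ?_ (hT.b3 y hy))
    have k1 : IntegrableOn (fun x => ∑ i, (∑ q, g q y * pd i (cf η e q) x) ^ 2) (D \ Gm) :=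
      integrable_finsetSum _ fun i _ => sq_int (fun q => m2 q i) (fun q => g q y)
    have k2 : IntegrableOn (fun x => (∑ q, g q y * cf η e q x) ^ 2) (D \ Gm) :=
      sq_int (fun q => ((cf_s hG hA q).continuous.memLp_of_hasCompactSupport
        (cf_c hG q)).restrict _) (fun q => g q y)
    exact setIntegral_mono k1 (k2.add k1) fun x => by
      have := sq_nonneg (∑ q, g q y * cf η e q x)
      show _ ≤ (∑ q, g q y * cf η e q x) ^ 2 + ∑ i, (∑ q, g q y * pd i (cf η e q) x) ^ 2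
      linarith
  have hpt : ∀ x, (∑ q, g q y * dv q i x) ^ 2 ≤
      2 * ((∑ q, g q y * (dv q i x - pd i (cf η e q) x)) ^ 2 +
        (∑ q, g q y * pd i (cf η e q) x) ^ 2) := by
    intro x
    have e1 : ∑ q, g q y * dv q i x = ∑ q, g q y * (dv q i x - pd i (cf η e q) x) +
        ∑ q, g q y * pd i (cf η e q) x := by
      rw [← Finset.sum_add_distrib]
      exact Finset.sum_congr rfl fun q _ => by ring
    rw [e1]
    nlinarith [sq_nonneg (∑ q, g q y * (dv q i x - pd i (cf η e q) x) -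
      ∑ q, g q y * pd i (cf η e q) x)]
  have j12 : IntegrableOn (fun x => (∑ q, g q y * (dv q i x - pd i (cf η e q) x)) ^ 2 +
      (∑ q, g q y * pd i (cf η e q) x) ^ 2) (X2 χ Gm) := j1.add j2
  calc _ ≤ ∫ x in X2 χ Gm, 2 * ((∑ q, g q y * (dv q i x - pd i (cf η e q) x)) ^ 2 +
        (∑ q, g q y * pd i (cf η e q) x) ^ 2) :=
        setIntegral_mono j3 (j12.const_mul 2) hpt
    _ = 2 * ((∫ x in X2 χ Gm, (∑ q, g q y * (dv q i x - pd i (cf η e q) x)) ^ 2) +
        ∫ x in X2 χ Gm, (∑ q, g q y * pd i (cf η e q) x) ^ 2) := by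
        rw [integral_const_mul, integral_add j1 j2]
    _ ≤ 2 * (A ^ 2 + (n + 1) * B ^ 2) := by linarith
    _ ≤ (2 * (A + (n + 1) * B)) ^ 2 := by
        have hn : (0 : ℝ) ≤ n := by positivity
        have h1 : 0 ≤ A * ((n + 1) * B) := by positivity
        have h2 : 0 ≤ (n + 1) * B ^ 2 := by positivity
        have h3 : (n + 1) * B ^ 2 ≤ ((n + 1) * B) ^ 2 := by
          have : (1 : ℝ) ≤ n + 1 := by linarith
          calc (n + 1) * B ^ 2 = 1 * ((n + 1) * B ^ 2) := by ring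
            _ ≤ (n + 1) * ((n + 1) * B ^ 2) := mul_le_mul_of_nonneg_right this h2
            _ = ((n + 1) * B) ^ 2 := by ring
        nlinarith [sq_nonneg A]

/-- The part with the remainder. -/
theorem termR (hG : Geo s₁ s₂ D Gm O P Fa Fb χ η ψ r C) (hA : Apr s₁ s₂ O P k R δ e g)
    {M : ℝ} (hM : 0 ≤ M) (hcoef : ∀ x i j l, |χ x * (s₂ x i j - s₁ x i j)| ≤ M ∧
      |pd l χ x * (s₁ x i j - s₂ x i j)| ≤ M ∧ |pd l χ x * s₂ x i j| ≤ M) :
    |∫ x in X1 χ Gm, ∑ i, ∑ j, (χ x * (s₂ x i j - s₁ x i j)) * dx i (dy j R) (x, x)| ≤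
      n * (n * (M * (C * (C * vb n r)))) * volume.real (X1 χ Gm) * δ := by
  have h := norm_setIntegral_le_of_norm_le_const (μ := (volume : Measure (V n)))
    (X1_fin (Gm := Gm) hG.χc) (f := fun x => ∑ i, ∑ j, (χ x * (s₂ x i j - s₁ x i j)) *
      dx i (dy j R) (x, x)) (C := n * (n * (M * (C * (C * δ * vb n r))))) (fun x hx => ?_)
  · rw [Real.norm_eq_abs] at h
    refine h.trans (le_of_eq ?_)
    ring
  · rw [Real.norm_eq_abs]
    calc _ ≤ ∑ i : Fin n, ∑ j : Fin n, M * (C * (C * δ * vb n r)) := by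
          refine (Finset.abs_sum_le_sum_abs _ _).trans (Finset.sum_le_sum fun i _ => ?_)
          refine (Finset.abs_sum_le_sum_abs _ _).trans (Finset.sum_le_sum fun j _ => ?_)
          rw [abs_mul]
          have a := rxy_bd hG.oO hG.cP hG.PO hG.ie₁ hG.ie₂ hG.C0 hA.Rs hA.R1 hA.R2 hG.r0
            (hG.q₁ x hx) hA.δ0.le hA.Rb (some i) (some j)
          simp only [jx_some, jy_some] at a
          exact mul_le_mul (hcoef x i j i).1 a (abs_nonneg _) hM
      _ = _ := by simp only [Finset.sum_const, Finset.card_univ, Fintype.card_fin, nsmul_eq_mul]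

end Vale.Agent.P088.HY.T3
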