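import Vale.Agent.P088.R2.H354.Apx

/-!
# The identity with the cut-off
-/

open MeasureTheory Set
open scoped ContDiff Matrix Topology

noncomputable section

namespace Vale.Agent.P088.HY.T3

open Vale.Agent.P088.LR G

variable {n : ℕ} {O P : Set (V n)}

theorem int_pd_zero {G : V n → ℝ} (hG : ContDiff ℝ ∞ G) (hcs : HasCompactSupport G)
    (i : Fin n) : Integrable (pd i G) ∧ ∫ x, pd i G x = 0 := by
  have hcs' : HasCompactSupport (pd i G) := hcs.fderiv_apply ℝ (Pi.single i 1)
  have hc : Continuous (pd i G) := by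
    have h1 : ContDiff ℝ ∞ (pd i G) := (hG.fderiv_right (by simp)).clm_apply contDiff_const
    exact h1.continuous
  have hint : Integrable (pd i G) := hc.integrable_of_hasCompactSupport hcs'
  refine ⟨hint, ?_⟩
  have hintG : Integrable G := hG.continuous.integrable_of_hasCompactSupport hcs
  have h1 := integral_mul_fderiv_eq_neg_fderiv_mul_of_integrable (μ := (volume : Measure (V n)))
    (f := fun _ : V n => (1 : ℝ)) (g := G) (v := Pi.single i 1) (by simp)
    (by
      simp only [one_mul]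
      exact hint) (by
      simp only [one_mul]
      exact hintG) (fun x _ => differentiableAt_const _)
    (fun x _ => (hG.differentiable (by simp)) x)
  simp only [one_mul, fderiv_fun_const, Pi.zero_apply, zero_apply, zero_mul, integral_zero,
    neg_zero] at h1
  exact h1

theorem pd_mul {f g : V n → ℝ} {x : V n} (hf : DifferentiableAt ℝ f x)
    (hg : DifferentiableAt ℝ g x) (i : Fin n) :
    pd i (fun x => f x * g x) x = f x * pd i g x + g x * pd i f x := by
  unfold pd
  rw [fderiv_fun_mul hf hg]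
  simp

/-- The flux of `u`. -/
def fx (s : MF n) (u : V n → ℝ) (j : Fin n) (x : V n) : ℝ := ∑ i, s x i j * pd i u x

theorem cd_fx (hO : IsOpen O) {s : MF n} (hs : SmM s) {u : V n → ℝ} (hu : ContDiffOn ℝ ∞ u O)
    (j : Fin n) : ContDiffOn ℝ ∞ (fx s u j) O :=
  ContDiffOn.sum fun i _ => (hs i j).contDiffOn.mul (contDiffOn_pd hO hu i)

theorem pd_sum1 {I : Type*} [Fintype I] {F : I → V n → ℝ} {x : V n}
    (hF : ∀ q, DifferentiableAt ℝ (F q) x) (i : Fin n) :
    pd i (fun x => ∑ q, F q x) x = ∑ q, pd i (F q) x := by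
  have h := pd_sum (fun _ : I => (1 : ℝ)) hF i
  simp only [one_mul] at h
  exact h

/-- The divergence of the flux. -/
theorem div_fx (hO : IsOpen O) {s : MF n} (hs : SmM s) (hsy : ∀ x, (s x).IsSymm)
    (hd : ∀ x ∈ O, ∀ j, ∑ i, pd i (fun y => s y i j) x = 0) {u : V n → ℝ}
    (hu : ContDiffOn ℝ ∞ u O) {x : V n} (hx : x ∈ O) : ∑ j, pd j (fx s u j) x = Lv s u x := by
  have h1 : ∀ j, pd j (fx s u j) x = ∑ i, (s x i j * pd j (pd i u) x +
      pd i u x * pd j (fun y => s y i j) x) := by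
    intro j
    unfold fx
    rw [pd_sum1 (F := fun i x => s x i j * pd i u x) (fun i => ?_) j]
    · refine Finset.sum_congr rfl fun i _ => ?_
      exact pd_mul ((hs i j).differentiable (by simp) x) (dAt1 hO (contDiffOn_pd hO hu i) hx) j
    · exact ((hs i j).differentiable (by simp) x).mul (dAt1 hO (contDiffOn_pd hO hu i) hx)
  simp only [h1, Finset.sum_add_distrib]
  have h2 : ∑ j, ∑ i, pd i u x * pd j (fun y => s y i j) x = 0 := by
    rw [Finset.sum_comm]
    refine Finset.sum_eq_zero fun i _ => ?_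
    rw [← Finset.mul_sum]
    have h3 : ∑ j, pd j (fun y => s y i j) x = 0 := by
      rw [← hd x hx i]
      refine Finset.sum_congr rfl fun j _ => ?_
      congr 1
      funext y
      exact (hsy y).apply j i
    rw [h3, mul_zero]
  rw [h2, add_zero]
  unfold Lv
  refine Finset.sum_congr rfl fun j _ => Finset.sum_congr rfl fun i _ => ?_
  rw [(hsy x).apply j i]

/-- `∫ χ (s₂ - s₁)(∇v, ∇g)` is an integral over the support of `∇χ`. -/
theorem ident (hO : IsOpen O) {s₁ s₂ : MF n} (hs₁ : SmM s₁) (hs₂ : SmM s₂)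
    (hy₁ : ∀ x, (s₁ x).IsSymm) (hy₂ : ∀ x, (s₂ x).IsSymm)
    (hd₁ : ∀ x ∈ O, ∀ j, ∑ i, pd i (fun y => s₁ y i j) x = 0)
    (hd₂ : ∀ x ∈ O, ∀ j, ∑ i, pd i (fun y => s₂ y i j) x = 0)
    {χ : V n → ℝ} (hχ : ContDiff ℝ ∞ χ) (hχc : HasCompactSupport χ) (hχO : tsupport χ ⊆ O)
    {v w g : V n → ℝ} (hv : ContDiffOn ℝ ∞ v O) (hw : ContDiffOn ℝ ∞ w O)
    (hg : ContDiffOn ℝ ∞ g O) (h1 : ∀ x ∈ O, Lv s₁ v x = 0)
    (h2 : ∀ x ∈ O, Lv s₂ (fun x => v x + w x) x = 0) (h3 : ∀ x ∈ O, Lv s₂ g x = 0) :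
    ∫ x, χ x * ∑ i, ∑ j, (s₂ x i j - s₁ x i j) * (pd i v x * pd j g x) =
      -∫ x, ∑ i, ∑ j, pd j χ x * ((s₂ x i j - s₁ x i j) * (g x * pd i v x) +
        s₂ x i j * (g x * pd i w x) - s₂ x i j * (w x * pd i g x)) := by
  set Y : Fin n → V n → ℝ := fun j x => g x * fx s₂ (fun x => v x + w x) j x -
    g x * fx s₁ v j x - w x * fx s₂ g j x with hY
  have hvw : ContDiffOn ℝ ∞ (fun x => v x + w x) O := hv.add hw
  have hYs : ∀ j, ContDiffOn ℝ ∞ (Y j) O := fun j =>
    ((hg.mul (cd_fx hO hs₂ hvw j)).sub (hg.mul (cd_fx hO hs₁ hv j))).sub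
      (hw.mul (cd_fx hO hs₂ hg j))
  have hXs : ∀ j, ContDiff ℝ ∞ fun x => χ x * Y j x := fun j => cut_mul1 hO hχ hχO (hYs j)
  have hXc : ∀ j, HasCompactSupport fun x => χ x * Y j x := fun j => hχc.mul_right
  have h0 : ∫ x, ∑ j, pd j (fun x => χ x * Y j x) x = 0 := by
    rw [integral_finsetSum _ fun j _ => (int_pd_zero (hXs j) (hXc j) j).1]
    exact Finset.sum_eq_zero fun j _ => (int_pd_zero (hXs j) (hXc j) j).2
  have hdivY : ∀ x ∈ O, ∑ j, pd j (Y j) x =
      ∑ i, ∑ j, (s₂ x i j - s₁ x i j) * (pd i v x * pd j g x) := by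
    intro x hx
    have dg := dAt1 hO hg hx
    have dw := dAt1 hO hw hx
    have dv := dAt1 hO hv hx
    have d2 := fun j => dAt1 hO (cd_fx hO hs₂ hvw j) hx
    have d1 := fun j => dAt1 hO (cd_fx hO hs₁ hv j) hx
    have d3 := fun j => dAt1 hO (cd_fx hO hs₂ hg j) hx
    have e1 : ∀ j, pd j (Y j) x = (g x * pd j (fx s₂ (fun x => v x + w x) j) x +
        fx s₂ (fun x => v x + w x) j x * pd j g x) - (g x * pd j (fx s₁ v j) x +
        fx s₁ v j x * pd j g x) - (w x * pd j (fx s₂ g j) x + fx s₂ g j x * pd j w x) := by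
      intro j
      have hh : HasFDerivAt (Y j)
          ((g x • fderiv ℝ (fx s₂ (fun x => v x + w x) j) x +
            fx s₂ (fun x => v x + w x) j x • fderiv ℝ g x) -
            (g x • fderiv ℝ (fx s₁ v j) x + fx s₁ v j x • fderiv ℝ g x) -
            (w x • fderiv ℝ (fx s₂ g j) x + fx s₂ g j x • fderiv ℝ w x)) x :=
        ((dg.hasFDerivAt.mul (d2 j).hasFDerivAt).sub (dg.hasFDerivAt.mul (d1 j).hasFDerivAt)).sub
          (dw.hasFDerivAt.mul (d3 j).hasFDerivAt)
      unfold pd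
      rw [hh.fderiv]
      simp
    simp only [e1, Finset.sum_sub_distrib, Finset.sum_add_distrib, ← Finset.mul_sum]
    rw [div_fx hO hs₂ hy₂ hd₂ hvw hx, h2 x hx, div_fx hO hs₁ hy₁ hd₁ hv hx, h1 x hx,
      div_fx hO hs₂ hy₂ hd₂ hg hx, h3 x hx]
    simp only [mul_zero, zero_add]
    have e2 : ∀ i, pd i (fun x => v x + w x) x = pd i v x + pd i w x := fun i => by
      unfold pd
      rw [fderiv_fun_add dv dw]
      rfl
    unfold fx
    simp only [e2, Finset.sum_mul]
    have e3 : ∑ j, ∑ i, s₂ x i j * pd i g x * pd j w x =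
        ∑ j, ∑ i, s₂ x i j * pd i w x * pd j g x := by
      rw [Finset.sum_comm]
      refine Finset.sum_congr rfl fun i _ => Finset.sum_congr rfl fun j _ => ?_
      rw [(hy₂ x).apply j i]
      ring
    rw [e3, ← Finset.sum_sub_distrib, ← Finset.sum_sub_distrib, Finset.sum_comm
      (f := fun i j => (s₂ x i j - s₁ x i j) * (pd i v x * pd j g x))]
    refine Finset.sum_congr rfl fun j _ => ?_
    rw [← Finset.sum_sub_distrib, ← Finset.sum_sub_distrib]
    exact Finset.sum_congr rfl fun i _ => by ring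
  have hpt : ∀ x, ∑ j, pd j (fun x => χ x * Y j x) x =
      χ x * (∑ i, ∑ j, (s₂ x i j - s₁ x i j) * (pd i v x * pd j g x)) +
      ∑ i, ∑ j, pd j χ x * ((s₂ x i j - s₁ x i j) * (g x * pd i v x) +
        s₂ x i j * (g x * pd i w x) - s₂ x i j * (w x * pd i g x)) := by
    intro x
    by_cases hx : x ∈ tsupport χ
    · have hxO := hχO hx
      have e1 : ∀ j, pd j (fun x => χ x * Y j x) x = χ x * pd j (Y j) x + Y j x * pd j χ x :=
        fun j => pd_mul (hχ.differentiable (by simp) x) (dAt1 hO (hYs j) hxO) j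
      simp only [e1, Finset.sum_add_distrib, ← Finset.mul_sum]
      rw [hdivY x hxO]
      congr 1
      rw [Finset.sum_comm]
      refine Finset.sum_congr rfl fun j _ => ?_
      have e2 : ∀ i, pd i (fun x => v x + w x) x = pd i v x + pd i w x := fun i => by
        unfold pd
        rw [fderiv_fun_add (dAt1 hO hv hxO) (dAt1 hO hw hxO)]
        rfl
      simp only [hY, fx, e2, Finset.mul_sum, ← Finset.sum_sub_distrib, Finset.sum_mul]
      exact Finset.sum_congr rfl fun i _ => by ring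
    · have hn : (tsupport χ)ᶜ ∈ 𝓝 x := (isClosed_tsupport χ).isOpen_compl.mem_nhds hx
      have e0 : ∀ y ∈ (tsupport χ)ᶜ, χ y = 0 := fun y hy => image_eq_zero_of_notMem_tsupport hy
      have e1 : ∀ j, pd j χ x = 0 := fun j => by
        have : χ =ᶠ[𝓝 x] fun _ => 0 := Filter.eventually_of_mem hn e0
        unfold pd; rw [this.fderiv_eq]; simp
      have e2 : ∀ j, pd j (fun x => χ x * Y j x) x = 0 := fun j => by
        have : (fun x => χ x * Y j x) =ᶠ[𝓝 x] fun _ => 0 :=
          Filter.eventually_of_mem hn fun y hy => by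
            show χ y * Y j y = 0
            rw [e0 y hy, zero_mul]
        unfold pd; rw [this.fderiv_eq]; simp
      simp [e1, e2, e0 x hx]
  simp only [hpt] at h0
  have hi1 : Integrable fun x => χ x * ∑ i, ∑ j, (s₂ x i j - s₁ x i j) * (pd i v x * pd j g x) := by
    refine Continuous.integrable_of_hasCompactSupport ?_ hχc.mul_right
    refine (cut_mul1 hO hχ hχO (g := fun x => ∑ i, ∑ j, (s₂ x i j - s₁ x i j) *
      (pd i v x * pd j g x)) ?_).continuous
    exact ContDiffOn.sum fun i _ => ContDiffOn.sum fun j _ =>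
      ((hs₂ i j).contDiffOn.sub (hs₁ i j).contDiffOn).mul
        ((contDiffOn_pd hO hv i).mul (contDiffOn_pd hO hg j))
  have hi2 : Integrable fun x => ∑ i, ∑ j, pd j χ x * ((s₂ x i j - s₁ x i j) * (g x * pd i v x) +
      s₂ x i j * (g x * pd i w x) - s₂ x i j * (w x * pd i g x)) := by
    refine integrable_finsetSum _ fun i _ => integrable_finsetSum _ fun j _ => ?_
    have hc' : HasCompactSupport (pd j χ) := hχc.fderiv_apply ℝ (Pi.single j 1)
    refine Continuous.integrable_of_hasCompactSupport ?_ hc'.mul_right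
    refine (cut_mul1 hO (ch := pd j χ) ((hχ.fderiv_right (by simp)).clm_apply contDiff_const)
      ?_ (g := fun x => ((s₂ x i j - s₁ x i j) * (g x * pd i v x) +
      s₂ x i j * (g x * pd i w x) - s₂ x i j * (w x * pd i g x))) ?_).continuous
    · exact (tsupport_fderiv_apply_subset ℝ _).trans hχO
    · exact ((((hs₂ i j).contDiffOn.sub (hs₁ i j).contDiffOn).mul
        (hg.mul (contDiffOn_pd hO hv i))).add ((hs₂ i j).contDiffOn.mul
        (hg.mul (contDiffOn_pd hO hw i)))).sub ((hs₂ i j).contDiffOn.mul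
        (hw.mul (contDiffOn_pd hO hg i)))
  rw [integral_add hi1 hi2] at h0
  linarith

end Vale.Agent.P088.HY.T3
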