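import Vale.Agent.P088.R2.H354.Apx

/-!
# The interior estimate at a fixed scale
-/

open MeasureTheory Set
open scoped ContDiff Matrix Topology

noncomputable section

namespace Vale.Agent.P088.HY.T3

open Vale.Agent.P088.LR G

variable {n : ℕ}

theorem Lv_aff {O : Set (V n)} (hO : IsOpen O) {s : MF n} {w : V n → ℝ}
    (hw : ContDiffOn ℝ ∞ w O) {p x : V n} {r : ℝ} (hx : p + r • x ∈ O) :
    Lv (fun x => s (p + r • x)) (fun x => w (p + r • x)) x = r ^ 2 * Lv s w (p + r • x) := by
  unfold Lv
  rw [Finset.mul_sum]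
  refine Finset.sum_congr rfl fun i _ => ?_
  rw [Finset.mul_sum]
  refine Finset.sum_congr rfl fun j _ => ?_
  have hO' : IsOpen {x : V n | p + r • x ∈ O} := hO.preimage (by fun_prop)
  have h1 : pd j (fun x => w (p + r • x)) =ᶠ[𝓝 x] fun x => r * pd j w (p + r • x) := by
    filter_upwards [hO'.mem_nhds hx] with y hy
    exact pd_comp_aff ((hw.contDiffAt (hO.mem_nhds hy)).differentiableAt (by simp)) j
  have h2 : DifferentiableAt ℝ (pd j w) (p + r • x) :=
    ((contDiffOn_pd hO hw j).contDiffAt (hO.mem_nhds hx)).differentiableAt (by simp)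
  have h3 : pd i (pd j (fun x => w (p + r • x))) x = r * (r * pd i (pd j w) (p + r • x)) := by
    have h4 : pd i (pd j (fun x => w (p + r • x))) x =
        pd i (fun x => r * pd j w (p + r • x)) x := by
      unfold pd at h1 ⊢
      rw [h1.fderiv_eq]
    rw [h4]
    have h5 := pd_comp_aff (f := fun y => r * pd j w y) (h2.const_mul r) (p := p) (x := x) i
    rw [h5]
    congr 1
    show fderiv ℝ (fun y => r * pd j w y) (p + r • x) (Pi.single i 1) = _
    rw [fderiv_const_mul h2]
    rfl
  rw [h3]; ring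

/-- The interior estimate at the scale `r`. -/
theorem intE_of (hI : RowINV) (n : ℕ) : ∃ (K : ℕ) (C ε : ℝ), 0 < C ∧ 0 < ε ∧
    ∀ s : MF n, SmM s →
      (∀ i j, Cl K ε (fun x => s x i j - (1 : Matrix (Fin n) (Fin n) ℝ) i j)) →
      ∀ t : ℝ, 0 < t → t ≤ 1 → ∀ O : Set (V n),
        IntE s O (2 * t) (C * √((t ^ n)⁻¹) * t⁻¹) := by
  obtain ⟨K, C, ε, hC, hε, h⟩ := hI n 1
  refine ⟨K, C, ε, hC, hε, ?_⟩
  intro s hs hcl t ht ht1 O p _ w hw hL hint o
  have hmap : ∀ x ∈ Metric.ball (0 : V n) 2, p + t • x ∈ Metric.ball p (2 * t) := by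
    intro x hx
    rw [mem_ball_zero_iff] at hx
    rw [Metric.mem_ball, dist_eq_norm, add_sub_cancel_left, norm_smul,
      Real.norm_of_nonneg ht.le]
    nlinarith
  have hop : IsOpen (Metric.ball p (2 * t)) := Metric.isOpen_ball
  have haff : ContDiff ℝ ∞ fun x : V n => p + t • x :=
    contDiff_const.add (contDiff_id.const_smul t)
  have hw' : ContDiffOn ℝ ∞ (fun x => w (p + t • x)) (Metric.ball 0 2) :=
    hw.comp haff.contDiffOn hmap
  have hint' : IntegrableOn (fun x => w (p + t • x) ^ 2) (Metric.ball 0 2) := by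
    have h1 : IntegrableOn (fun x => w (p + x) ^ 2) (Metric.ball (0 : V n) (t * 2)) := by
      have h2 : (fun x => p + x) ⁻¹' (Metric.ball p (2 * t)) = Metric.ball (0 : V n) (t * 2) := by
        ext x
        simp [mul_comm]
      rw [← h2]
      exact ((measurePreserving_add_left volume p).integrableOn_comp_preimage
        (measurableEmbedding_addLeft p)).2 hint
    have h3 : Metric.ball (0 : V n) 2 = (fun x => t • x) ⁻¹' Metric.ball (0 : V n) (t * 2) := by
      ext x
      rw [mem_preimage, mem_ball_zero_iff, mem_ball_zero_iff, norm_smul,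
        Real.norm_of_nonneg ht.le]
      exact (mul_lt_mul_iff_right₀ ht).symm
    have h4 := (integrable_comp_smul_iff (μ := (volume : Measure (V n)))
      ((Metric.ball (0 : V n) (t * 2)).indicator fun x => w (p + x) ^ 2) ht.ne').2
      ((integrable_indicator_iff measurableSet_ball).2 h1)
    rw [← integrable_indicator_iff measurableSet_ball]
    refine h4.congr (Filter.Eventually.of_forall fun x => ?_)
    show (Metric.ball (0 : V n) (t * 2)).indicator (fun x => w (p + x) ^ 2) (t • x) = _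
    by_cases hx : x ∈ Metric.ball (0 : V n) 2
    · rw [indicator_of_mem hx, indicator_of_mem (by rw [h3] at hx; exact hx)]
    · rw [indicator_of_notMem hx, indicator_of_notMem (by rw [h3] at hx; exact hx)]
  have key := h (fun x => s (p + t • x)) ?_ ?_ (fun x => w (p + t • x)) (fun _ => 0) hw'
    contDiffOn_const ?_ hint' 0 ?_
  rotate_left
  · intro i j
    exact ((hs i j).comp haff).contDiffOn
  · intro i j l hl x _
    have h1 : ContDiff ℝ ∞ fun x => s x i j - (1 : Matrix (Fin n) (Fin n) ℝ) i j :=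
      (hs i j).sub contDiff_const
    exact (iter_comp_aff h1 ht.le ht1 l).trans (hcl i j l hl _)
  · intro x hx
    rw [Lv_aff hop hw (hmap x hx), hL _ (hmap x hx), mul_zero]
  · intro l _ x _
    have : iteratedFDeriv ℝ l (fun _ : V n => (0 : ℝ)) x = 0 := by
      rw [iteratedFDeriv_fun_zero]; rfl
    rw [this, norm_zero]
  rw [add_zero, integral_aff (fun x => w x ^ 2) p ht] at key
  have hsq : √((t ^ n)⁻¹ * ∫ x in Metric.ball p (2 * t), w x ^ 2) ≤
      √((t ^ n)⁻¹) * √(∫ x in Metric.ball p (2 * t), w x ^ 2) :=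
    sqrt_mul_le (by positivity) le_rfl
  have hpp : p + t • (0 : V n) = p := by simp
  have h1t : 1 ≤ t⁻¹ := (one_le_inv₀ ht).2 ht1
  have hA : 0 ≤ C * (√((t ^ n)⁻¹) * √(∫ x in Metric.ball p (2 * t), w x ^ 2)) := by positivity
  rcases o with _ | i
  · have h2 := key 0 (by norm_num)
    rw [norm_iteratedFDeriv_zero, hpp, Real.norm_eq_abs] at h2
    calc |jd none w p| = |w p| := rfl
      _ ≤ C * (√((t ^ n)⁻¹) * √(∫ x in Metric.ball p (2 * t), w x ^ 2)) :=
        h2.trans (mul_le_mul_of_nonneg_left hsq hC.le)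
      _ ≤ (C * (√((t ^ n)⁻¹) * √(∫ x in Metric.ball p (2 * t), w x ^ 2))) * t⁻¹ :=
        le_mul_of_one_le_right hA h1t
      _ = _ := by ring
  · have h2 := key 1 le_rfl
    rw [norm_iteratedFDeriv_one] at h2
    have h3 : DifferentiableAt ℝ w (p + t • (0 : V n)) := by
      rw [hpp]
      exact (hw.contDiffAt (hop.mem_nhds (Metric.mem_ball_self (by positivity)))).differentiableAt
        (by simp)
    have h4 := pd_comp_aff h3 i
    rw [hpp] at h4
    have h5 : |t * pd i w p| ≤ ‖fderiv ℝ (fun x => w (p + t • x)) 0‖ := by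
      rw [← h4]
      unfold pd
      have h5 := (fderiv ℝ (fun x => w (p + t • x)) 0).le_opNorm (Pi.single i 1)
      have h6 : ‖(Pi.single i 1 : V n)‖ ≤ 1 := by
        rw [Pi.norm_single]; simp
      rw [← Real.norm_eq_abs]
      exact h5.trans (mul_le_of_le_one_right (norm_nonneg _) h6)
    rw [abs_mul, abs_of_pos ht] at h5
    have h8 : t * |pd i w p| ≤
        C * (√((t ^ n)⁻¹) * √(∫ x in Metric.ball p (2 * t), w x ^ 2)) :=
      h5.trans (h2.trans (mul_le_mul_of_nonneg_left hsq hC.le))
    calc |jd (some i) w p| = t⁻¹ * (t * |pd i w p|) := by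
          show |pd i w p| = _
          field_simp
      _ ≤ t⁻¹ * (C * (√((t ^ n)⁻¹) * √(∫ x in Metric.ball p (2 * t), w x ^ 2))) :=
          mul_le_mul_of_nonneg_left h8 (inv_nonneg.2 ht.le)
      _ = _ := by ring

end Vale.Agent.P088.HY.T3
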