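import Vale.Agent.P088.R2.H354.Tot

/-!
# The bound by the far layer
-/

open MeasureTheory Set
open scoped ContDiff Matrix Topology

noncomputable section

namespace Vale.Agent.P088.HY.T3

open Vale.Agent.P088.LR G

variable {n : ℕ} {s₁ s₂ : MF n} {D Gm O P Fa Fb : Set (V n)} {χ η ψ : V n → ℝ} {r C : ℝ}
  {k R : VV n → ℝ} {δ : ℝ} {d : ℕ} {e g : Fin d → V n → ℝ}

theorem split (hO : IsOpen O) (hA : Apr s₁ s₂ O P k R δ e g) {p : V n} (hp : p ∈ O)
    (i j : Fin n) : dx i (dy j k) (p, p) =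
      dx i (dy j R) (p, p) + ∑ q, pd i (e q) p * pd j (g q) p := by
  have h1 : ∀ x ∈ O, dy j k (x, p) = dy j R (x, p) + ∑ q, pd j (g q) p * e q x := by
    intro x hx
    have a1 := jd_sly hO hA.ks hx hp (some j)
    have a2 := jd_sly hO hA.Rs hx hp (some j)
    simp only [jd_some, jy_some] at a1 a2
    rw [← a1, ← a2]
    have h2 : (fun y => k (x, y)) = fun y => R (x, y) + ∑ q, e q x * g q y := by
      funext y
      rw [hA.Re]
      have : ∑ q, g q y * e q x = ∑ q, e q x * g q y :=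
        Finset.sum_congr rfl fun q _ => mul_comm _ _
      show k (x, y) = k (x, y) - ∑ q, g q y * e q x + _
      rw [this]; ring
    have h3 := jd_add hO (sly hA.Rs hx) (g := fun y => ∑ q, e q x * g q y)
      (ContDiffOn.sum fun q _ => contDiffOn_const.mul (hA.gs q)) hp (some j)
    simp only [jd_some] at h3
    rw [h2, h3]
    have h4 := jd_sumO hO (fun q => e q x) hp hA.gs (some j)
    simp only [jd_some] at h4
    rw [h4]
    congr 1
    exact Finset.sum_congr rfl fun q _ => mul_comm _ _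
  have a1 := jd_slx hO (cd_dy hO hA.ks j) hp hp (some i)
  have a2 := jd_slx hO (cd_dy hO hA.Rs j) hp hp (some i)
  simp only [jd_some, jx_some] at a1 a2
  rw [← a1, ← a2]
  have b1 := jd_cg hO h1 hp (some i)
  have b2 := jd_add hO (slx (cd_dy hO hA.Rs j) hp)
    (g := fun x => ∑ q, pd j (g q) p * e q x)
    (ContDiffOn.sum fun q _ => contDiffOn_const.mul (hA.es q)) hp (some i)
  have b3 := jd_sumO hO (fun q => pd j (g q) p) hp hA.es (some i)
  simp only [jd_some] at b1 b2 b3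
  rw [b1, b2, b3]
  congr 1
  exact Finset.sum_congr rfl fun q _ => mul_comm _ _

theorem cont_diagO (hO : IsOpen O) {f : VV n → ℝ} (hf : ContDiffOn ℝ ∞ f (O ×ˢ O)) :
    ContDiffOn ℝ ∞ (fun p : V n => f (p, p)) O :=
  hf.comp (contDiff_id.prodMk contDiff_id).contDiffOn fun _ hp => ⟨hp, hp⟩

/-- Integrability of the terms. -/
theorem hint_mk {X : Set (V n)} (hO : IsOpen O) {b σ a f : V n → ℝ} (hb : ContDiff ℝ ∞ b)
    (hbc : HasCompactSupport b) (hbO : tsupport b ⊆ O) (hσ : ContDiff ℝ ∞ σ)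
    (ha : MemLp a 2 (volume.restrict X)) (hf : ContDiffOn ℝ ∞ f O) (o : Option (Fin n)) :
    IntegrableOn (fun x => (b x * σ x) * (a x * jd o f x)) X :=
  (int_mem ha (cut_mul1 hO hb hbO (hσ.contDiffOn.mul (cd_jd hO hf o))).continuous
    hbc.mul_right).congr (Filter.Eventually.of_forall fun x => by
      show a x * (b x * (σ x * jd o f x)) = (b x * σ x) * (a x * jd o f x)
      ring)

/-- Bounds of the coefficients with the cut-off. -/
theorem coef_bd (hs₁ : SmM s₁) (hs₂ : SmM s₂) (hχ : ContDiff ℝ ∞ χ)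
    (hχc : HasCompactSupport χ) : ∃ M : ℝ, 0 ≤ M ∧ ∀ x i j l, |χ x * (s₂ x i j - s₁ x i j)| ≤ M ∧
      |pd l χ x * (s₁ x i j - s₂ x i j)| ≤ M ∧ |pd l χ x * s₂ x i j| ≤ M := by
  have hc1 : ∀ j, ContDiff ℝ ∞ (pd j χ) := fun j =>
    (hχ.fderiv_right (by simp)).clm_apply contDiff_const
  have hcs1 : ∀ j, HasCompactSupport (pd j χ) := fun j => hχc.fderiv_apply ℝ (Pi.single j 1)
  choose A hA a using fun i j : Fin n => bdd_cs (F := fun x => χ x * (s₂ x i j - s₁ x i j))
    (hχ.continuous.mul ((hs₂ i j).continuous.sub (hs₁ i j).continuous)) hχc.mul_right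
  choose A' hA' a' using fun i j l : Fin n =>
    bdd_cs (F := fun x => pd l χ x * (s₁ x i j - s₂ x i j))
      ((hc1 l).continuous.mul ((hs₁ i j).continuous.sub (hs₂ i j).continuous)) (hcs1 l).mul_right
  choose A'' hA'' a'' using fun i j l : Fin n => bdd_cs (F := fun x => pd l χ x * s₂ x i j)
      ((hc1 l).continuous.mul (hs₂ i j).continuous) (hcs1 l).mul_right
  have hn : ∀ i j l, 0 ≤ A i j + A' i j l + A'' i j l := fun i j l =>
    add_nonneg (add_nonneg (hA i j) (hA' i j l)) (hA'' i j l)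
  refine ⟨∑ i, ∑ j, ∑ l, (A i j + A' i j l + A'' i j l), Finset.sum_nonneg fun i _ =>
    Finset.sum_nonneg fun j _ => Finset.sum_nonneg fun l _ => hn i j l, fun x i j l => ?_⟩
  have h1 : A i j + A' i j l + A'' i j l ≤ ∑ i, ∑ j, ∑ l, (A i j + A' i j l + A'' i j l) :=
    ((Finset.single_le_sum (f := fun l => A i j + A' i j l + A'' i j l) (fun l _ => hn i j l)
      (Finset.mem_univ l)).trans
    (Finset.single_le_sum (f := fun j => ∑ l, (A i j + A' i j l + A'' i j l))
      (fun j _ => Finset.sum_nonneg fun l _ => hn i j l) (Finset.mem_univ j))).trans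
    (Finset.single_le_sum (f := fun i => ∑ j, ∑ l, (A i j + A' i j l + A'' i j l))
      (fun i _ => Finset.sum_nonneg fun j _ => Finset.sum_nonneg fun l _ => hn i j l)
        (Finset.mem_univ i))
  have := hA i j
  have := hA' i j l
  have := hA'' i j l
  exact ⟨(a i j x).trans (by linarith), (a' i j l x).trans (by linarith),
    (a'' i j l x).trans (by linarith)⟩

theorem sq_int {X : Set (V n)} {a : Fin d → V n → ℝ}
    (ha : ∀ q, MemLp (a q) 2 (volume.restrict X)) (c : Fin d → ℝ) :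
    IntegrableOn (fun x => (∑ q, c q * a q x) ^ 2) X :=
  (memLp_finsetSum Finset.univ fun q _ => (ha q).const_mul (c q)).integrable_sq

theorem mono_sq {X X' : Set (V n)} (h : X ⊆ X') {F : V n → ℝ} (hF : IntegrableOn F X')
    (h0 : ∀ x, 0 ≤ F x) : ∫ x in X, F x ≤ ∫ x in X', F x :=
  setIntegral_mono_set hF (Filter.Eventually.of_forall h0) h.eventuallyLE

theorem mono_one {X X' : Set (V n)} (h : X ⊆ X') {a : Fin d → Fin n → V n → ℝ}
    (ha : ∀ q i, MemLp (a q i) 2 (volume.restrict X')) (c : Fin d → ℝ) (i : Fin n) :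
    (∫ x in X, (∑ q, c q * a q i x) ^ 2) ≤ ∫ x in X', ∑ i, (∑ q, c q * a q i x) ^ 2 := by
  refine (mono_sq h (sq_int (fun q => ha q i) c) fun x => sq_nonneg _).trans ?_
  refine setIntegral_mono (sq_int (fun q => ha q i) c)
    (integrable_finsetSum _ fun i _ => sq_int (fun q => ha q i) c) fun x => ?_
  exact Finset.single_le_sum (f := fun i => (∑ q, c q * a q i x) ^ 2)
    (fun i _ => sq_nonneg _) (Finset.mem_univ i)

/-- The set where the form lives. -/
def X1 (χ : V n → ℝ) (Gm : Set (V n)) : Set (V n) := tsupport χ \ Gm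

/-- The set where the gradient of the cut-off lives. -/
def X2 (χ : V n → ℝ) (Gm : Set (V n)) : Set (V n) := X1 χ Gm ∩ ⋃ j, {x | pd j χ x ≠ 0}

theorem X1_meas (hG : IsOpen Gm) : MeasurableSet (X1 χ Gm) :=
  (isClosed_tsupport χ).measurableSet.diff hG.measurableSet

theorem X2_meas (hG : IsOpen Gm) (hχ : ContDiff ℝ ∞ χ) : MeasurableSet (X2 χ Gm) := by
  refine (X1_meas hG).inter (MeasurableSet.iUnion fun j => ?_)
  have hc1 : ContDiff ℝ ∞ (pd j χ) := (hχ.fderiv_right (by simp)).clm_apply contDiff_const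
  exact (isOpen_ne.preimage hc1.continuous).measurableSet

theorem X2_sub : X2 χ Gm ⊆ X1 χ Gm := inter_subset_left

theorem X1_fin (hχc : HasCompactSupport χ) : volume (X1 χ Gm) < ⊤ :=
  (measure_mono sdiff_subset).trans_lt hχc.isCompact.measure_lt_top

theorem X1_D (hG : Geo s₁ s₂ D Gm O P Fa Fb χ η ψ r C) : X1 χ Gm ⊆ D \ Gm := fun _ hx =>
  ⟨hG.OD (hG.χO hx.1), hx.2⟩

theorem X2_ball (hG : Geo s₁ s₂ D Gm O P Fa Fb χ η ψ r C) :
    ∀ x ∈ X2 χ Gm, Metric.ball x r ⊆ Fb := fun x hx => hG.q₄ x hx.1 (by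
  obtain ⟨j, hj⟩ := mem_iUnion.1 hx.2
  exact ⟨j, hj⟩)

theorem X2_off {X' : Set (V n)} (hX' : X' ⊆ Gmᶜ) {x : V n} (hx : x ∈ X' \ X2 χ Gm) (j : Fin n) :
    pd j χ x = 0 := by
  by_contra h
  refine hx.2 ⟨⟨?_, hX' hx.1⟩, mem_iUnion.2 ⟨j, h⟩⟩
  by_contra h2
  exact h (pd_off_ts h2 j)

end Vale.Agent.P088.HY.T3
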