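import Vale.Agent.P088.R2.H354.S11

/-!
# The bound by the far layer in the normalised situation, with a parameter
-/

open MeasureTheory Set
open scoped ContDiff Matrix Topology

noncomputable section

namespace Vale.Agent.P088.HY.T3

open Vale.Agent.P088.LR G

variable {n : ℕ}

/-- **The bound by the far layer, normalised.** The inner radii are `1 - O(θ)`. -/
theorem s11t (hI : RowINV) (n : ℕ) : ∃ (K : ℕ) (ε : ℝ), 0 < ε ∧
    ∀ (s₁ s₂ : MF n) (G : Set (V n)), Nrm K ε s₁ s₂ G → Stp (Eb 0 24) G s₁ s₂ →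
    ∀ θ : ℝ, 0 < θ → θ ≤ 1 / 100 →
    ∀ (O : Set (V n)) (χ : V n → ℝ), IsOpen O → O ⊆ Eb 0 24 → Ac n (1 - 9 / 10 * θ) 20 ⊆ O →
    ContDiff ℝ ∞ χ → (∀ x ∉ Ac n (1 - θ / 5) 12, χ x = 0) →
    (∀ x ∈ Ao n (1 - θ / 10) 11, χ x = 1) →
    ∃ B : ℝ, 0 ≤ B ∧ ∀ (k : VV n → ℝ) (S : ℝ), 0 ≤ S →
      ContDiffOn ℝ ∞ k (O ×ˢ O) → (∀ z ∈ O ×ˢ O, Lx s₁ k z = 0) →
      (∀ z ∈ O ×ˢ O, Ly s₂ k z = 0) →
      (∀ x ∈ Ac n (1 - 9 / 10 * θ) 20, ∀ y ∈ Ac n 10 20, |k (x, y)| ≤ S ∧ |k (y, x)| ≤ S) →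
      |∫ x, χ x * ∑ i, ∑ j, (s₂ x i j - s₁ x i j) * dx i (dy j k) (x, x)| ≤ B * S := by
  obtain ⟨K, C, ε, hC, hε, hie⟩ := intE_of hI n
  refine ⟨K, ε, hε, ?_⟩
  intro s₁ s₂ G hN h3 θ hθ0 hθ1 O χ hO hOD hPO hχs hχ0 hχ1
  obtain ⟨t, ht⟩ : ∃ t : ℝ, t = θ / (10 * (n + 1)) := ⟨_, rfl⟩
  have hn : (0 : ℝ) ≤ n := by positivity
  have ht0 : 0 < t := by rw [ht]; positivity
  have ht1 : t ≤ 1 := by
    rw [ht, div_le_one (by positivity)]
    nlinarith
  have hnt : (n + 1) * (2 * t) = θ / 5 := by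
    rw [ht]
    field_simp
    ring
  have hb : ∀ {p x : V n}, x ∈ Metric.ball p (2 * t) →
      √(sq p) - θ / 5 ≤ √(sq x) ∧ √(sq x) ≤ √(sq p) + θ / 5 := by
    intro p x hx
    have h := rt_ball (by positivity) hx
    rw [hnt] at h
    exact h
  -- the cut-offs
  obtain ⟨η, hηs, hηc, hηO, hη1⟩ := exists_cut (n := n) (isOpen_Ao (1 - θ / 2) 19)
    (isCompact_Ac (1 - 3 / 10 * θ) 18) fun x hx =>
      ⟨lt_of_lt_of_le (by linarith) hx.1, lt_of_le_of_lt hx.2 (by linarith)⟩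
  obtain ⟨ψ, hψs, hψc, hψO, hψ1⟩ := exists_cut (n := n) (isOpen_Ao (-1) (1 - θ / 10))
    (isCompact_Ac 0 (1 - θ / 5)) fun x hx =>
      ⟨lt_of_lt_of_le (by linarith) hx.1, lt_of_le_of_lt hx.2 (by linarith)⟩
  have hχt : tsupport χ ⊆ Ac n (1 - θ / 5) 12 := by
    refine closure_minimal (fun x hx => ?_) (isClosed_Ac _ _)
    by_contra h
    exact hx (hχ0 x h)
  have hG1 : ∀ x : V n, √(sq x) < 1 → x ∈ G := fun x hx => hN.b1 ((mem_Eb0 one_pos).2 hx)
  have hoff : ∀ p ∈ tsupport χ \ G, 1 ≤ √(sq p) ∧ √(sq p) ≤ 12 := fun p hp =>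
    ⟨not_lt.1 fun h => hp.2 (hG1 p h), (hχt hp.1).2⟩
  have hgeo : Geo s₁ s₂ (Eb 0 24) G O (Ac n (1 - 9 / 10 * θ) 20) (Ac n 18 19) (Ac n 10 20) χ η ψ
      (2 * t) (C * √((t ^ n)⁻¹) * t⁻¹) :=
    { oD := isOpen_Eb 0 24
      oO := hO
      OD := hOD
      cP := isCompact_Ac _ _
      PO := hPO
      oG := hN.oG
      cF := isCompact_Ac _ _
      sm₁ := hN.sm₁
      sm₂ := hN.sm₂
      sy₂ := hN.sy₂
      dv₂ := fun x hx => hN.dv₂ x (hOD hx)
      eqG := hN.eq
      ie₁ := hie s₁ hN.sm₁ hN.cl₁ t ht0 ht1 O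
      ie₂ := hie s₂ hN.sm₂ hN.cl₂ t ht0 ht1 O
      C0 := by positivity
      r0 := by positivity
      χs := hχs
      χc := HasCompactSupport.of_support_subset_isCompact (isCompact_Ac (1 - θ / 5) 12)
        ((subset_tsupport χ).trans hχt)
      χO := fun x hx =>
        hPO ⟨le_trans (by linarith) (hχt hx).1, le_trans (hχt hx).2 (by linarith)⟩
      ηs := hηs
      ηc := hηc
      ηP := hηO.trans fun x hx =>
        ⟨le_trans (by linarith) hx.1.le, le_trans hx.2.le (by linarith)⟩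
      ψs := hψs
      ψG := fun x hx => by
        have h := (hψO hx).2
        exact ⟨hG1 x (lt_trans h (by linarith)), (mem_Eb0 (by linarith)).2
          (lt_trans h (by linarith))⟩
      fa := by
        intro x hx
        by_cases h1 : √(sq x) ≤ 1 - θ / 5
        · exact Or.inl (hψ1 x ⟨Real.sqrt_nonneg _, h1⟩)
        refine Or.inr ?_
        push Not at h1
        by_cases h2 : √(sq x) < 18
        · have h3 : x ∈ Ao n (1 - 3 / 10 * θ) 18 := ⟨lt_trans (by linarith) h1, h2⟩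
          have h4 : ∀ y ∈ Ao n (1 - 3 / 10 * θ) 18, η y = 1 := fun y hy =>
            hη1 y ⟨hy.1.le, hy.2.le⟩
          exact ⟨fun i => pd_zero_of (isOpen_Ao _ _) h4 h3 i, fun i j =>
            pd_zero_of (isOpen_Ao _ _) (fun y hy => pd_zero_of (isOpen_Ao _ _) h4 hy j) h3 i⟩
        · push Not at h2
          have h3 : x ∉ tsupport η := by
            intro h
            exact hx ⟨h2, (hηO h).2.le⟩
          exact ⟨fun i => pd_off_ts h3 i, fun i j => pd2_off_ts h3 i j⟩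
      fab := by
        intro x hx y hy
        have h := hb hy
        exact ⟨by linarith [hx.1, h.1], by linarith [hx.2, h.2]⟩
      fbP := fun x hx => ⟨le_trans (by linarith) hx.1, hx.2⟩
      q₁ := by
        intro p hp x hx
        have h := hb hx
        have h' := hoff p hp
        exact ⟨by linarith [h.1, h'.1], by linarith [h.2, h'.2]⟩
      q₂ := by
        intro p hp x hx
        have h := hb hx
        have h' := hoff p hp
        exact hη1 x ⟨by linarith [h.1, h'.1], by linarith [h.2, h'.2]⟩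
      q₄ := by
        intro p hp hi x hx
        have h := hb hx
        have h' := hoff p hp
        have h11 : 11 ≤ √(sq p) := by
          by_contra hc
          push Not at hc
          obtain ⟨i, hi⟩ := hi
          exact hi (pd_zero_of (isOpen_Ao (1 - θ / 10) 11) hχ1
            ⟨lt_of_lt_of_le (by linarith) h'.1, hc⟩ i)
        exact ⟨by linarith [h.1], by linarith [h.2, h'.2]⟩
      q₅ := by
        intro p hp x hx
        have h := hb hx
        have h' := hηO hp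
        exact ⟨by linarith [h.1, h'.1], by linarith [h.2, h'.2]⟩ }
  exact trf hgeo h3

end Vale.Agent.P088.HY.T3
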