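import Vale.Agent.P088.R2.H354.Trg

/-!
# The bound by the far layer: sums over the family
-/

open MeasureTheory Set
open scoped ContDiff Matrix Topology

noncomputable section

namespace Vale.Agent.P088.HY.T3

open Vale.Agent.P088.LR G

variable {n : ℕ} {O P D X X' Y : Set (V n)}

theorem tot_bd (hO : IsOpen O) {s : MF n} {r C : ℝ} (hI : IntE s O r C) (hC : 0 ≤ C)
    {d : ℕ} {g : Fin d → V n → ℝ} (hg : ∀ q, ContDiffOn ℝ ∞ (g q) O)
    (hgl : ∀ q, ∀ x ∈ O, Lv s (g q) x = 0) (hr : 0 < r) (hX : MeasurableSet X)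
    (hXf : volume X < ⊤) (hX' : MeasurableSet X') (hXX' : X ⊆ X')
    (hY : IsCompact Y) (hYO : Y ⊆ O) (hXY : ∀ x ∈ X, Metric.ball x r ⊆ Y)
    {c : Fin n → Fin n → V n → ℝ} {a : Fin d → Fin n → V n → ℝ}
    {o : Fin n → Fin n → Option (Fin n)}
    (ha : ∀ q i, MemLp (a q i) 2 (volume.restrict X))
    (h0 : ∀ x ∈ X' \ X, ∀ i j q, c i j x * (a q i x * jd (o i j) (g q) x) = 0)
    (hint : ∀ i j q, IntegrableOn (fun x => c i j x * (a q i x * jd (o i j) (g q) x)) X')
    {M : ℝ} (hM : 0 ≤ M) (hcM : ∀ i j, ∀ x ∈ X, |c i j x| ≤ M) {c' T : ℝ} (hc' : 0 ≤ c')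
    (hT : 0 < T) (hb : ∀ i, ∀ y ∈ Y, (∫ x in X, (∑ q, g q y * a q i x) ^ 2) ≤ (c' * T) ^ 2) :
    |∑ q, ∫ x in X', ∑ i, ∑ j, c i j x * (a q i x * jd (o i j) (g q) x)| ≤
      n * (n * (M * ((1 + volume.real X) * ((C * (c' * √(volume.real Y)) + 1) * T)))) := by
  have e1 : ∑ q, ∫ x in X', ∑ i, ∑ j, c i j x * (a q i x * jd (o i j) (g q) x) =
      ∑ i, ∑ j, ∫ x in X, c i j x * ∑ q, a q i x * jd (o i j) (g q) x := by
    have h1 : ∀ q, ∫ x in X', ∑ i, ∑ j, c i j x * (a q i x * jd (o i j) (g q) x) =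
        ∑ i, ∑ j, ∫ x in X', c i j x * (a q i x * jd (o i j) (g q) x) := fun q => by
      rw [integral_finsetSum _ fun i _ => integrable_finsetSum _ fun j _ => hint i j q]
      exact Finset.sum_congr rfl fun i _ => integral_finsetSum _ fun j _ => hint i j q
    simp only [h1]
    rw [Finset.sum_comm]
    refine Finset.sum_congr rfl fun i _ => ?_
    rw [Finset.sum_comm]
    refine Finset.sum_congr rfl fun j _ => ?_
    rw [← integral_finsetSum _ fun q _ => hint i j q]
    have h2 : ∫ x in X', ∑ q, c i j x * (a q i x * jd (o i j) (g q) x) =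
        ∫ x in X, ∑ q, c i j x * (a q i x * jd (o i j) (g q) x) :=
      setIntegral_eq_of_subset_of_forall_sdiff_eq_zero hX' hXX' fun x hx =>
        Finset.sum_eq_zero fun q _ => h0 x hx i j q
    rw [h2]
    exact integral_congr_ae (Filter.Eventually.of_forall fun x => (Finset.mul_sum _ _ _).symm)
  rw [e1]
  have hv : 0 ≤ volume.real Y := measureReal_nonneg
  have hv2 : √(volume.real Y) ^ 2 = volume.real Y := Real.sq_sqrt hv
  have hsum : ∀ i j, |∫ x in X, c i j x * ∑ q, a q i x * jd (o i j) (g q) x| ≤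
      M * ((1 + volume.real X) * ((C * (c' * √(volume.real Y)) + 1) * T)) := by
    intro i j
    obtain ⟨i1, i2⟩ := diag_bd hO hI hC hg hgl hr hX hY hYO hXY (fun q => ha q i) (hb i) (o i j)
    refine l1_bd hXf hM (hcM i j) hX i1 (by positivity) (i2.trans ?_)
    have e2 : C ^ 2 * ((c' * T) ^ 2 * volume.real Y) = (C * (c' * √(volume.real Y)) * T) ^ 2 := by
      calc C ^ 2 * ((c' * T) ^ 2 * volume.real Y) =
          C ^ 2 * ((c' * T) ^ 2 * √(volume.real Y) ^ 2) := by rw [hv2]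
        _ = _ := by ring
    rw [e2]
    refine pow_le_pow_left₀ (by positivity) ?_ 2
    have : 0 < T := hT
    linarith
  calc _ ≤ ∑ i : Fin n, ∑ j : Fin n,
        M * ((1 + volume.real X) * ((C * (c' * √(volume.real Y)) + 1) * T)) :=
        (Finset.abs_sum_le_sum_abs _ _).trans (Finset.sum_le_sum fun i _ =>
          (Finset.abs_sum_le_sum_abs _ _).trans (Finset.sum_le_sum fun j _ => hsum i j))
    _ = _ := by simp only [Finset.sum_const, Finset.card_univ, Fintype.card_fin, nsmul_eq_mul]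

theorem int_mem {a F : V n → ℝ} (ha : MemLp a 2 (volume.restrict X)) (hF : Continuous F)
    (hFc : HasCompactSupport F) : IntegrableOn (fun x => a x * F x) X := by
  have h1 : MemLp F 2 (volume.restrict X) := (hF.memLp_of_hasCompactSupport hFc).restrict X
  exact ha.integrable_mul h1

/-- The identity from the weak equation. -/
theorem Jid (hD : IsOpen D) (hO : IsOpen O) (hOD : O ⊆ D) {Gm : Set (V n)}
    {s₁ s₂ : MF n} (hs₁ : SmM s₁) (hs : SmM s₂)
    (hsy : ∀ x, (s₂ x).IsSymm) (hd : ∀ x ∈ O, ∀ j, ∑ i, pd i (fun y => s₂ y i j) x = 0)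
    {χ : V n → ℝ} (hχ : ContDiff ℝ ∞ χ) (hχc : HasCompactSupport χ) (hχO : tsupport χ ⊆ O)
    {w g : V n → ℝ} {dv : Fin n → V n → ℝ} (hw : ContDiffOn ℝ 1 w D)
    (hw1 : ∀ i, MemLp (pd i w) 2 (volume.restrict D))
    (hdv : ∀ i, MemLp (dv i) 2 (volume.restrict (D \ Gm)))
    (hg : ContDiffOn ℝ ∞ g O) (hgl : ∀ x ∈ O, Lv s₂ g x = 0)
    (hwk : ∀ φ : V n → ℝ, ContDiff ℝ ∞ φ → HasCompactSupport φ → tsupport φ ⊆ D →
      (∫ x in D, ∑ i, ∑ j, s₂ x i j * (pd i w x * pd j φ x)) =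
        ∫ x in D \ Gm, ∑ i, ∑ j, (s₁ x i j - s₂ x i j) * (dv i x * pd j φ x)) :
    (∫ x in D \ Gm, ∑ i, ∑ j, (χ x * (s₂ x i j - s₁ x i j)) * (dv i x * pd j g x)) =
      (∫ x in D \ Gm, ∑ i, ∑ j, (pd j χ x * (s₁ x i j - s₂ x i j)) * (dv i x * g x)) +
      (∫ x in D, ∑ i, ∑ j, (pd i χ x * s₂ x i j) * (w x * pd j g x)) -
      ∫ x in D, ∑ i, ∑ j, (pd j χ x * s₂ x i j) * (pd i w x * g x) := by
  have hc1 : ∀ j, ContDiff ℝ ∞ (pd j χ) := fun j =>
    (hχ.fderiv_right (by simp)).clm_apply contDiff_const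
  have hcs1 : ∀ j, HasCompactSupport (pd j χ) := fun j => hχc.fderiv_apply ℝ (Pi.single j 1)
  have hct1 : ∀ j, tsupport (pd j χ) ⊆ O := fun j =>
    (tsupport_fderiv_apply_subset ℝ _).trans hχO
  have hφ := hwk (fun x => χ x * g x) (cut_mul1 hO hχ hχO hg) hχc.mul_right
    ((closure_mono fun y hy => left_ne_zero_of_mul hy).trans (hχO.trans hOD))
  have hpφ : ∀ x j, pd j (fun x => χ x * g x) x = χ x * pd j g x + g x * pd j χ x := by
    intro x j
    by_cases hx : x ∈ O
    · exact pd_mul (hχ.differentiable (by simp) x) (dAt1 hO hg hx) j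
    · have hx' : x ∉ tsupport χ := fun h => hx (hχO h)
      have hx2 : x ∉ tsupport (fun x => χ x * g x) := fun h =>
        hx' (closure_mono (fun y hy => left_ne_zero_of_mul hy) h)
      rw [pd_off_ts hx2, pd_off_ts hx', image_eq_zero_of_notMem_tsupport hx']
      ring
  simp only [hpφ] at hφ
  -- smooth compactly supported coefficients
  have k1 : ∀ i j, ContDiff ℝ ∞ fun x => χ x * ((s₁ x i j - s₂ x i j) * pd j g x) := fun i j =>
    cut_mul1 hO hχ hχO (((hs₁ i j).contDiffOn.sub (hs i j).contDiffOn).mul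
      (contDiffOn_pd hO hg j))
  have k2 : ∀ i j, ContDiff ℝ ∞ fun x => pd j χ x * ((s₁ x i j - s₂ x i j) * g x) := fun i j =>
    cut_mul1 hO (hc1 j) (hct1 j) (((hs₁ i j).contDiffOn.sub (hs i j).contDiffOn).mul hg)
  have k3 : ∀ i j, ContDiff ℝ ∞ fun x => χ x * (s₂ x i j * pd j g x) := fun i j =>
    cut_mul1 hO hχ hχO ((hs i j).contDiffOn.mul (contDiffOn_pd hO hg j))
  have k4 : ∀ i j, ContDiff ℝ ∞ fun x => pd j χ x * (s₂ x i j * g x) := fun i j =>
    cut_mul1 hO (hc1 j) (hct1 j) ((hs i j).contDiffOn.mul hg)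
  have m1 : ∀ i j, IntegrableOn (fun x => (s₁ x i j - s₂ x i j) * (dv i x * (χ x * pd j g x)))
      (D \ Gm) := fun i j =>
    (int_mem (hdv i) (k1 i j).continuous hχc.mul_right).congr
      (Filter.Eventually.of_forall fun x => by
        show dv i x * (χ x * ((s₁ x i j - s₂ x i j) * pd j g x)) = _
        ring)
  have m2 : ∀ i j, IntegrableOn (fun x => (s₁ x i j - s₂ x i j) * (dv i x * (g x * pd j χ x)))
      (D \ Gm) := fun i j =>
    (int_mem (hdv i) (k2 i j).continuous (hcs1 j).mul_right).congr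
      (Filter.Eventually.of_forall fun x => by
        show dv i x * (pd j χ x * ((s₁ x i j - s₂ x i j) * g x)) = _
        ring)
  have m3 : ∀ i j, IntegrableOn (fun x => s₂ x i j * (pd i w x * (χ x * pd j g x))) D :=
    fun i j => (int_mem (hw1 i) (k3 i j).continuous hχc.mul_right).congr
      (Filter.Eventually.of_forall fun x => by
        show pd i w x * (χ x * (s₂ x i j * pd j g x)) = _
        ring)
  have m4 : ∀ i j, IntegrableOn (fun x => s₂ x i j * (pd i w x * (g x * pd j χ x))) D :=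
    fun i j => (int_mem (hw1 i) (k4 i j).continuous (hcs1 j).mul_right).congr
      (Filter.Eventually.of_forall fun x => by
        show pd i w x * (pd j χ x * (s₂ x i j * g x)) = _
        ring)
  have n1 := integrable_finsetSum Finset.univ fun i _ =>
    integrable_finsetSum Finset.univ fun j _ => m1 i j
  have n2 := integrable_finsetSum Finset.univ fun i _ =>
    integrable_finsetSum Finset.univ fun j _ => m2 i j
  have n3 := integrable_finsetSum Finset.univ fun i _ =>
    integrable_finsetSum Finset.univ fun j _ => m3 i j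
  have n4 := integrable_finsetSum Finset.univ fun i _ =>
    integrable_finsetSum Finset.univ fun j _ => m4 i j
  have eL : (∫ x in D, ∑ i, ∑ j, s₂ x i j * (pd i w x * (χ x * pd j g x + g x * pd j χ x))) =
      (∫ x in D, ∑ i, ∑ j, s₂ x i j * (pd i w x * (χ x * pd j g x))) +
      ∫ x in D, ∑ i, ∑ j, s₂ x i j * (pd i w x * (g x * pd j χ x)) := by
    rw [← integral_add n3 n4]
    congr 1
    funext x
    rw [← Finset.sum_add_distrib]
    refine Finset.sum_congr rfl fun i _ => ?_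
    rw [← Finset.sum_add_distrib]
    exact Finset.sum_congr rfl fun j _ => by ring
  have eR : (∫ x in D \ Gm, ∑ i, ∑ j, (s₁ x i j - s₂ x i j) *
      (dv i x * (χ x * pd j g x + g x * pd j χ x))) =
      (∫ x in D \ Gm, ∑ i, ∑ j, (s₁ x i j - s₂ x i j) * (dv i x * (χ x * pd j g x))) +
      ∫ x in D \ Gm, ∑ i, ∑ j, (s₁ x i j - s₂ x i j) * (dv i x * (g x * pd j χ x)) := by
    rw [← integral_add n1 n2]
    congr 1
    funext x
    rw [← Finset.sum_add_distrib]
    refine Finset.sum_congr rfl fun i _ => ?_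
    rw [← Finset.sum_add_distrib]
    exact Finset.sum_congr rfl fun j _ => by ring
  rw [eL, eR, ibp_w hD hO hOD hs hsy hd hχ hχc hχO hw hg hgl] at hφ
  have f1 : (∫ x in D \ Gm, ∑ i, ∑ j, (s₁ x i j - s₂ x i j) * (dv i x * (χ x * pd j g x))) =
      -∫ x in D \ Gm, ∑ i, ∑ j, (χ x * (s₂ x i j - s₁ x i j)) * (dv i x * pd j g x) := by
    rw [← integral_neg]
    congr 1
    funext x
    rw [← Finset.sum_neg_distrib]
    refine Finset.sum_congr rfl fun i _ => ?_
    rw [← Finset.sum_neg_distrib]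
    exact Finset.sum_congr rfl fun j _ => by ring
  have f2 : (∫ x in D \ Gm, ∑ i, ∑ j, (s₁ x i j - s₂ x i j) * (dv i x * (g x * pd j χ x))) =
      ∫ x in D \ Gm, ∑ i, ∑ j, (pd j χ x * (s₁ x i j - s₂ x i j)) * (dv i x * g x) := by
    congr 1
    funext x
    exact Finset.sum_congr rfl fun i _ => Finset.sum_congr rfl fun j _ => by ring
  have f3 : (∫ x in D, ∑ i, ∑ j, s₂ x i j * (w x * (pd i χ x * pd j g x))) =
      ∫ x in D, ∑ i, ∑ j, (pd i χ x * s₂ x i j) * (w x * pd j g x) := by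
    congr 1
    funext x
    exact Finset.sum_congr rfl fun i _ => Finset.sum_congr rfl fun j _ => by ring
  have f4 : (∫ x in D, ∑ i, ∑ j, s₂ x i j * (pd i w x * (g x * pd j χ x))) =
      ∫ x in D, ∑ i, ∑ j, (pd j χ x * s₂ x i j) * (pd i w x * g x) := by
    congr 1
    funext x
    exact Finset.sum_congr rfl fun i _ => Finset.sum_congr rfl fun j _ => by ring
  rw [f1, f2, f3, f4] at hφ
  linarith

end Vale.Agent.P088.HY.T3
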