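import Vale.Agent.P088.R2.H354.Dg

/-!
# The bound by the far layer: preparations
-/

open MeasureTheory Set
open scoped ContDiff Matrix Topology

noncomputable section

namespace Vale.Agent.P088.HY.T3

open Vale.Agent.P088.LR G

variable {n : ℕ}

/-- The geometry: chart `D`, matched set `Gm`, domain `O` of the kernels, compact set `P`, far
layers `Fa` and `Fb`, cut-offs `χ` (in the form), `η` (for the families) and `ψ` (separating the
sources). -/
structure Geo (s₁ s₂ : MF n) (D Gm O P Fa Fb : Set (V n)) (χ η ψ : V n → ℝ) (r C : ℝ) :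
    Prop where
  oD : IsOpen D
  oO : IsOpen O
  OD : O ⊆ D
  cP : IsCompact P
  PO : P ⊆ O
  oG : IsOpen Gm
  cF : IsCompact Fb
  sm₁ : SmM s₁
  sm₂ : SmM s₂
  sy₂ : ∀ x, (s₂ x).IsSymm
  dv₂ : ∀ x ∈ O, ∀ j, ∑ i, pd i (fun y => s₂ y i j) x = 0
  eqG : ∀ x ∈ Gm ∩ D, s₂ x = s₁ x
  ie₁ : IntE s₁ O r C
  ie₂ : IntE s₂ O r C
  C0 : 0 ≤ C
  r0 : 0 < r
  χs : ContDiff ℝ ∞ χ
  χc : HasCompactSupport χ
  χO : tsupport χ ⊆ O
  ηs : ContDiff ℝ ∞ η
  ηc : HasCompactSupport η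
  ηP : tsupport η ⊆ P
  ψs : ContDiff ℝ ∞ ψ
  ψG : tsupport ψ ⊆ Gm ∩ D
  fa : ∀ x ∉ Fa, ψ x = 1 ∨ ((∀ i, pd i η x = 0) ∧ ∀ i j, pd i (pd j η) x = 0)
  fab : ∀ x ∈ Fa, Metric.ball x r ⊆ Fb
  fbP : Fb ⊆ P
  q₁ : ∀ p ∈ tsupport χ \ Gm, Metric.ball p r ⊆ P
  q₂ : ∀ p ∈ tsupport χ \ Gm, ∀ x ∈ Metric.ball p r, η x = 1
  q₄ : ∀ p ∈ tsupport χ \ Gm, (∃ i, pd i χ p ≠ 0) → Metric.ball p r ⊆ Fb
  q₅ : ∀ x ∈ tsupport η, Metric.ball x r ⊆ P

theorem int_bd {F : V n → ℝ} {Q : Set (V n)} (hQ : IsCompact Q) (h0 : ∀ x ∉ Q, F x = 0) {B : ℝ}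
    (hB : ∀ x ∈ Q, |F x| ≤ B) : |∫ x, F x| ≤ B * volume.real Q := by
  rw [← setIntegral_eq_integral_of_forall_compl_eq_zero h0]
  have h := norm_setIntegral_le_of_norm_le_const (μ := (volume : Measure (V n)))
    hQ.measure_lt_top (f := F) (C := B) hB
  rwa [Real.norm_eq_abs] at h

section families

variable {s₁ s₂ : MF n} {D Gm O P Fa Fb : Set (V n)} {χ η ψ : V n → ℝ} {r C : ℝ}

theorem pd_off_ts {c : V n → ℝ} {x : V n} (hx : x ∉ tsupport c) (i : Fin n) : pd i c x = 0 := by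
  have h : c =ᶠ[𝓝 x] fun _ => 0 := Filter.eventually_of_mem
    ((isClosed_tsupport c).isOpen_compl.mem_nhds hx) fun y hy => image_eq_zero_of_notMem_tsupport hy
  unfold pd; rw [h.fderiv_eq]; simp

theorem pd2_off_ts {c : V n → ℝ} {x : V n} (hx : x ∉ tsupport c) (i j : Fin n) :
    pd i (pd j c) x = 0 := by
  have h : pd j c =ᶠ[𝓝 x] fun _ => 0 := Filter.eventually_of_mem
    ((isClosed_tsupport c).isOpen_compl.mem_nhds hx) fun y hy => pd_off_ts hy j
  show fderiv ℝ (pd j c) x _ = 0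
  rw [h.fderiv_eq]; simp

theorem comm_zero {s : MF n} {c : V n → ℝ} (u : V n → ℝ) {x : V n} (h1 : ∀ i, pd i c x = 0)
    (h2 : ∀ i j, pd i (pd j c) x = 0) : comm s c u x = 0 := by
  unfold comm
  refine Finset.sum_eq_zero fun i _ => Finset.sum_eq_zero fun j _ => ?_
  rw [h1 i, h1 j, h2 i j]
  ring

/-- The operator on a cut-off solution. -/
theorem Lf_eq (hG : Geo s₁ s₂ D Gm O P Fa Fb χ η ψ r C) {u : V n → ℝ}
    (hu : ContDiffOn ℝ ∞ u O) (hl : ∀ x ∈ O, Lv s₁ u x = 0) (x : V n) :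
    Lv s₁ (fun x => η x * u x) x = comm s₁ η u x := by
  by_cases hx : x ∈ O
  · rw [Lv_mul hG.oO hG.ηs hu hx, hl x hx, mul_zero, zero_add]
  · have hx' : x ∉ tsupport η := fun h => hx (hG.PO (hG.ηP h))
    rw [comm_zero u (fun i => pd_off_ts hx' i) (fun i j => pd2_off_ts hx' i j)]
    have hts : x ∉ tsupport (fun x => η x * u x) := fun h =>
      hx' (closure_mono (fun y hy => left_ne_zero_of_mul hy) h)
    unfold Lv
    exact Finset.sum_eq_zero fun i _ => Finset.sum_eq_zero fun j _ => by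
      rw [pd2_off_ts hts, mul_zero]

/-- `(1 - ψ) [L, η] u` vanishes off `Fa`, and off `P`. -/
theorem comm_off (hG : Geo s₁ s₂ D Gm O P Fa Fb χ η ψ r C) (u : V n → ℝ) {x : V n}
    (hx : x ∉ Fa ∨ x ∉ P) : (1 - ψ x) * comm s₁ η u x = 0 := by
  rcases hx with hx | hx
  · rcases hG.fa x hx with h | ⟨h1, h2⟩
    · rw [h]; ring
    · rw [comm_zero u h1 h2, mul_zero]
  · have hx' : x ∉ tsupport η := fun h => hx (hG.ηP h)
    rw [comm_zero u (fun i => pd_off_ts hx' i) (fun i j => pd2_off_ts hx' i j), mul_zero]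

theorem int_bdS {F : V n → ℝ} {Q : Set (V n)} (hQ : IsCompact Q) (h0 : ∀ x ∉ Q, F x = 0)
    {B : ℝ} (hB0 : 0 ≤ B) (hB : ∀ x ∈ Q, |F x| ≤ B) (D : Set (V n)) :
    |∫ x in D, F x| ≤ B * volume.real Q := by
  have hi : Integrable (Q.indicator fun _ : V n => B) :=
    (integrable_indicator_iff hQ.measurableSet).2 (integrableOn_const hQ.measure_lt_top.ne)
  have h1 : ∀ x, ‖F x‖ ≤ Q.indicator (fun _ => B) x := by
    intro x
    by_cases hx : x ∈ Q
    · rw [indicator_of_mem hx]; exact hB x hx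
    · rw [indicator_of_notMem hx, h0 x hx, norm_zero]
  have h2 := norm_integral_le_of_norm_le (hi.integrableOn (s := D))
    (Filter.Eventually.of_forall h1)
  rw [Real.norm_eq_abs] at h2
  refine h2.trans ?_
  refine (setIntegral_le_integral hi (Filter.Eventually.of_forall fun x =>
    indicator_nonneg (fun _ _ => hB0) x)).trans (le_of_eq ?_)
  rw [integral_indicator hQ.measurableSet, setIntegral_const, smul_eq_mul, mul_comm]

/-- The bound of the second part of the right-hand side. -/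
theorem h2_bd (hG : Geo s₁ s₂ D Gm O P Fa Fb χ η ψ r C) {Cc : ℝ}
    (hc : ∀ (u : V n → ℝ) (x : V n) (B : ℝ), DifferentiableAt ℝ u x → 0 ≤ B →
      (∀ o : Option (Fin n), |jd o u x| ≤ B) → |(1 - ψ x) * comm s₁ η u x| ≤ Cc * B ∧
      |η x * u x| ≤ Cc * B ∧ ∀ i, |pd i (fun x => η x * u x) x| ≤ Cc * B)
    {u : V n → ℝ} (hu : ContDiffOn ℝ ∞ u O)
    {β : ℝ} (hβ : 0 ≤ β) (hb : ∀ x ∈ Fa, ∀ o : Option (Fin n), |jd o u x| ≤ β)
    (D' : Set (V n)) :
    ∫ x in D', ((1 - ψ x) * comm s₁ η u x) ^ 2 ≤ (Cc * β) ^ 2 * volume.real P := by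
  refine (le_abs_self _).trans (int_bdS hG.cP (fun x hx => ?_) (sq_nonneg _) (fun x hx => ?_) D')
  · rw [comm_off hG u (Or.inr hx)]; ring
  · rw [abs_of_nonneg (sq_nonneg _)]
    by_cases hf : x ∈ Fa
    · have h := (hc u x β (dAt1 hG.oO hu (hG.PO hx)) hβ (hb x hf)).1
      exact sq_le_sq' (by linarith [(abs_le.1 h).1]) (abs_le.1 h).2
    · rw [comm_off hG u (Or.inl hf)]
      have := sq_nonneg (Cc * β)
      simpa using this

/-- The bound of the energy of the cut-off function. -/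
theorem en_bd (hG : Geo s₁ s₂ D Gm O P Fa Fb χ η ψ r C) {Cc : ℝ}
    (hc : ∀ (u : V n → ℝ) (x : V n) (B : ℝ), DifferentiableAt ℝ u x → 0 ≤ B →
      (∀ o : Option (Fin n), |jd o u x| ≤ B) → |(1 - ψ x) * comm s₁ η u x| ≤ Cc * B ∧
      |η x * u x| ≤ Cc * B ∧ ∀ i, |pd i (fun x => η x * u x) x| ≤ Cc * B)
    {u : V n → ℝ} (hu : ContDiffOn ℝ ∞ u O)
    {β : ℝ} (hβ : 0 ≤ β) (hb : ∀ x ∈ tsupport η, ∀ o : Option (Fin n), |jd o u x| ≤ β) :
    IntegrableOn (fun x => (η x * u x) ^ 2) (D \ Gm) ∧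
    (∫ x in D \ Gm, (η x * u x) ^ 2) ≤ (Cc * β) ^ 2 * volume.real P ∧
    (∫ x in D \ Gm, ((η x * u x) ^ 2 + ∑ i, pd i (fun x => η x * u x) x ^ 2)) ≤
      (n + 1) * ((Cc * β) ^ 2 * volume.real P) := by
  have hs : ContDiff ℝ ∞ fun x => η x * u x := cut_mul1 hG.oO hG.ηs (hG.ηP.trans hG.PO) hu
  have hcs : HasCompactSupport fun x => η x * u x := hG.ηc.mul_right
  have hs1 : ∀ i, Continuous (pd i fun x => η x * u x) := fun i =>
    (((hs.fderiv_right (m := ∞) (by simp)).clm_apply contDiff_const).continuous :)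
  have hcs1 : ∀ i, HasCompactSupport (pd i fun x => η x * u x) := fun i =>
    hcs.fderiv_apply ℝ (Pi.single i 1)
  have h0 : ∀ x ∉ P, η x * u x = 0 := fun x hx => by
    rw [image_eq_zero_of_notMem_tsupport fun h => hx (hG.ηP h), zero_mul]
  have hts : ∀ x ∉ P, x ∉ tsupport (fun x => η x * u x) := fun x hx h =>
    hx (hG.ηP (closure_mono (fun y hy => left_ne_zero_of_mul hy) h))
  have hi1 : Integrable fun x => (η x * u x) ^ 2 := by
    refine (hs.continuous.pow 2).integrable_of_hasCompactSupport ?_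
    refine HasCompactSupport.intro hG.cP fun x hx => ?_
    show (η x * u x) ^ 2 = 0
    rw [h0 x hx]; ring
  have hi2 : ∀ i, Integrable fun x => pd i (fun x => η x * u x) x ^ 2 := fun i => by
    refine ((hs1 i).pow 2).integrable_of_hasCompactSupport ?_
    refine HasCompactSupport.intro hG.cP fun x hx => ?_
    show pd i (fun x => η x * u x) x ^ 2 = 0
    rw [pd_off_ts (hts x hx) i]; ring
  have hpt0 : ∀ x, (η x * u x) ^ 2 ≤ (Cc * β) ^ 2 := by
    intro x
    by_cases hx : x ∈ tsupport η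
    · have h := (hc u x β (dAt1 hG.oO hu (hG.PO (hG.ηP hx))) hβ (hb x hx)).2.1
      exact sq_le_sq' (by linarith [(abs_le.1 h).1]) (abs_le.1 h).2
    · rw [image_eq_zero_of_notMem_tsupport hx]
      have := sq_nonneg (Cc * β)
      simpa using this
  have hpt1 : ∀ i x, pd i (fun x => η x * u x) x ^ 2 ≤ (Cc * β) ^ 2 := by
    intro i x
    by_cases hx : x ∈ tsupport η
    · have h := (hc u x β (dAt1 hG.oO hu (hG.PO (hG.ηP hx))) hβ (hb x hx)).2.2 i
      exact sq_le_sq' (by linarith [(abs_le.1 h).1]) (abs_le.1 h).2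
    · have : x ∉ tsupport (fun x => η x * u x) := fun h =>
        hx (closure_mono (fun y hy => left_ne_zero_of_mul hy) h)
      rw [pd_off_ts this i]
      have := sq_nonneg (Cc * β)
      simpa using this
  have hi3 : Integrable fun x => (η x * u x) ^ 2 + ∑ i, pd i (fun x => η x * u x) x ^ 2 :=
    hi1.add (integrable_finsetSum _ fun i _ => hi2 i)
  refine ⟨hi1.integrableOn, ?_, ?_⟩
  · refine (setIntegral_le_integral hi1 (Filter.Eventually.of_forall fun x => sq_nonneg _)).trans ?_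
    refine (le_abs_self _).trans (int_bd hG.cP (fun x hx => ?_) fun x hx => ?_)
    · rw [h0 x hx]; ring
    · rw [abs_of_nonneg (sq_nonneg _)]
      exact hpt0 x
  · refine (setIntegral_le_integral hi3 (Filter.Eventually.of_forall fun x => by positivity)).trans
      ?_
    have h5 : |∫ x, ((η x * u x) ^ 2 + ∑ i, pd i (fun x => η x * u x) x ^ 2)| ≤
        ((n + 1) * (Cc * β) ^ 2) * volume.real P := by
      refine int_bd hG.cP (fun x hx => ?_) fun x hx => ?_
      · rw [h0 x hx, Finset.sum_eq_zero fun i _ => by rw [pd_off_ts (hts x hx) i]; ring]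
        ring
      · rw [abs_of_nonneg (by positivity)]
        have h6 : ∑ i, pd i (fun x => η x * u x) x ^ 2 ≤ n * (Cc * β) ^ 2 := by
          refine (Finset.sum_le_sum fun i _ => hpt1 i x).trans (le_of_eq ?_)
          rw [Finset.sum_const, Finset.card_univ, Fintype.card_fin, nsmul_eq_mul]
        linarith [hpt0 x]
    refine (le_abs_self _).trans (h5.trans (le_of_eq ?_))
    ring

end families

end Vale.Agent.P088.HY.T3
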