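import Vale.Agent.P088.R2.H354.Trf

/-!
# The families obtained from `Step3`
-/

open MeasureTheory Set
open scoped ContDiff Matrix Topology

noncomputable section

namespace Vale.Agent.P088.HY.T3

open Vale.Agent.P088.LR G

variable {n : ℕ} {s₁ s₂ : MF n} {D Gm O P Fa Fb : Set (V n)} {χ η ψ : V n → ℝ} {r C : ℝ}

/-- The data of the approximation. -/
structure Apr (s₁ s₂ : MF n) (O P : Set (V n)) (k R : VV n → ℝ) (δ : ℝ) {d : ℕ}
    (e g : Fin d → V n → ℝ) : Prop where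
  ks : ContDiffOn ℝ ∞ k (O ×ˢ O)
  k1 : ∀ z ∈ O ×ˢ O, Lx s₁ k z = 0
  Rs : ContDiffOn ℝ ∞ R (O ×ˢ O)
  R1 : ∀ z ∈ O ×ˢ O, Lx s₁ R z = 0
  R2 : ∀ z ∈ O ×ˢ O, Ly s₂ R z = 0
  es : ∀ q, ContDiffOn ℝ ∞ (e q) O
  gs : ∀ q, ContDiffOn ℝ ∞ (g q) O
  el : ∀ q, ∀ x ∈ O, Lv s₁ (e q) x = 0
  gl : ∀ q, ∀ x ∈ O, Lv s₂ (g q) x = 0
  Re : ∀ z, R z = k z - ∑ q, g q z.2 * e q z.1
  Rb : ∀ y ∈ P, ∫ x in P, R (x, y) ^ 2 ≤ δ ^ 2
  δ0 : 0 < δ

section

variable {k R : VV n → ℝ} {δ : ℝ} {d : ℕ} {e g : Fin d → V n → ℝ}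

theorem Apr.us (hA : Apr s₁ s₂ O P k R δ e g) (c : Fin d → ℝ) :
    ContDiffOn ℝ ∞ (fun x => ∑ q, c q * e q x) O :=
  ContDiffOn.sum fun q _ => contDiffOn_const.mul (hA.es q)

theorem Apr.ul (hO : IsOpen O) (hA : Apr s₁ s₂ O P k R δ e g) (c : Fin d → ℝ) :
    ∀ x ∈ O, Lv s₁ (fun x => ∑ q, c q * e q x) x = 0 := fun x hx => by
  rw [Lv_sum hO c hx hA.es s₁]
  exact Finset.sum_eq_zero fun q _ => by rw [hA.el q x hx, mul_zero]

theorem Apr.uj (hO : IsOpen O) (hA : Apr s₁ s₂ O P k R δ e g) {x y : V n} (hy : y ∈ O)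
    (hx : x ∈ O) (o : Option (Fin n)) : jd o (fun x => ∑ q, g q y * e q x) x =
      jx o k (x, y) - jx o R (x, y) := by
  have : (fun x => ∑ q, g q y * e q x) = fun x => k (x, y) - R (x, y) := by
    funext x
    rw [hA.Re (x, y)]; ring
  rw [this, jd_sub hO (slx hA.ks hy) (slx hA.Rs hy) hx o, jd_slx hO hA.ks hx hy,
    jd_slx hO hA.Rs hx hy]

theorem Apr.beta (hG : Geo s₁ s₂ D Gm O P Fa Fb χ η ψ r C) (hA : Apr s₁ s₂ O P k R δ e g)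
    {S : ℝ} (hS : 0 ≤ S) {x y : V n} (hy : y ∈ P) (hx : Metric.ball x r ⊆ P)
    (hxS : ∀ x' ∈ Metric.ball x r, |k (x', y)| ≤ S) (o : Option (Fin n)) :
    |jd o (fun x => ∑ q, g q y * e q x) x| ≤ (C * vb n r + C) * (S + δ) := by
  have hxO : x ∈ O := hG.PO (hx (Metric.mem_ball_self hG.r0))
  have hOI₁ := hG.ie₁
  have hC := hG.C0
  have hδ := hA.δ0
  rw [hA.uj hG.oO (hG.PO hy) hxO o]
  have b1 := kx_bd hG.oO hOI₁ hC hA.ks hA.k1 hG.r0 (hx.trans hG.PO) (hG.PO hy) hS hxS o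
  have b2 := rx_bd hG.oO hG.cP hG.PO hOI₁ hC hA.Rs hA.R1 hG.r0 hx hy hA.δ0.le (hA.Rb y hy) o
  refine (abs_sub _ _).trans ((add_le_add b1 b2).trans ?_)
  have hb : 0 ≤ vb n r := vb_nonneg r
  have e1 : 0 ≤ C * vb n r * δ := by positivity
  have e2 : 0 ≤ C * S := by positivity
  linarith

/-- The cut-off family. -/
def cf (η : V n → ℝ) (e : Fin d → V n → ℝ) (q : Fin d) (x : V n) : ℝ := η x * e q x

theorem cf_s (hG : Geo s₁ s₂ D Gm O P Fa Fb χ η ψ r C) (hA : Apr s₁ s₂ O P k R δ e g)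
    (q : Fin d) : ContDiff ℝ ∞ (cf η e q) :=
  cut_mul1 hG.oO hG.ηs (hG.ηP.trans hG.PO) (hA.es q)

theorem cf_ts (q : Fin d) : tsupport (cf η e q) ⊆ tsupport η :=
  closure_mono fun y hy => left_ne_zero_of_mul hy

theorem cf_c (hG : Geo s₁ s₂ D Gm O P Fa Fb χ η ψ r C) (q : Fin d) :
    HasCompactSupport (cf η e q) := hG.ηc.mul_right

theorem cf_L (hG : Geo s₁ s₂ D Gm O P Fa Fb χ η ψ r C) (hA : Apr s₁ s₂ O P k R δ e g)
    (q : Fin d) : ContDiff ℝ ∞ (Lv s₁ (cf η e q)) := by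
  unfold Lv
  refine ContDiff.sum fun i _ => ContDiff.sum fun j _ => (hG.sm₁ i j).mul ?_
  have a1 : ContDiff ℝ ∞ (pd j (cf η e q)) := ((cf_s hG hA q).fderiv_right (by simp)).clm_apply
    contDiff_const
  exact (a1.fderiv_right (by simp)).clm_apply contDiff_const

theorem cf_L0 (hG : Geo s₁ s₂ D Gm O P Fa Fb χ η ψ r C) (hA : Apr s₁ s₂ O P k R δ e g)
    (q : Fin d) {x : V n} (hx : x ∉ tsupport η) : Lv s₁ (cf η e q) x = 0 := by
  unfold cf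
  rw [Lf_eq hG (hA.es q) (hA.el q), comm_zero _ (fun i => pd_off_ts hx i)
    (fun i j => pd2_off_ts hx i j)]

theorem cf_Lc (hG : Geo s₁ s₂ D Gm O P Fa Fb χ η ψ r C) (hA : Apr s₁ s₂ O P k R δ e g)
    (q : Fin d) : HasCompactSupport (Lv s₁ (cf η e q)) :=
  HasCompactSupport.intro hG.ηc fun x hx => cf_L0 hG hA q hx

theorem cf_Lts (hG : Geo s₁ s₂ D Gm O P Fa Fb χ η ψ r C) (hA : Apr s₁ s₂ O P k R δ e g)
    (q : Fin d) : tsupport (Lv s₁ (cf η e q)) ⊆ tsupport η :=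
  closure_minimal (fun x hx => by
    by_contra h
    exact hx (cf_L0 hG hA q h)) (isClosed_tsupport η)

theorem cf_sum (c : Fin d → ℝ) (x : V n) :
    ∑ q, c q * cf η e q x = η x * ∑ q, c q * e q x := by
  rw [Finset.mul_sum]
  exact Finset.sum_congr rfl fun q _ => by unfold cf; ring

/-- The integral of the second part of the right-hand side. -/
theorem H2_bd (hG : Geo s₁ s₂ D Gm O P Fa Fb χ η ψ r C) (hA : Apr s₁ s₂ O P k R δ e g)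
    {Cc : ℝ} (hc : ∀ (u : V n → ℝ) (x : V n) (B : ℝ), DifferentiableAt ℝ u x → 0 ≤ B →
      (∀ o : Option (Fin n), |jd o u x| ≤ B) → |(1 - ψ x) * comm s₁ η u x| ≤ Cc * B ∧
      |η x * u x| ≤ Cc * B ∧ ∀ i, |pd i (fun x => η x * u x) x| ≤ Cc * B)
    {S : ℝ} (hS : 0 ≤ S) (hfar : ∀ x ∈ P, ∀ y ∈ Fb, |k (x, y)| ≤ S ∧ |k (y, x)| ≤ S)
    {y : V n} (hy : y ∈ P) :
    (∫ x in D, (∑ q, g q y * ((1 - ψ x) * Lv s₁ (cf η e q) x)) ^ 2) ≤
      (Cc * (C * vb n r + C) * √(volume.real P) * (S + δ)) ^ 2 := by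
  have hC := hG.C0
  have hδ := hA.δ0
  have hb : 0 ≤ vb n r := vb_nonneg r
  have e1 : ∀ x, ∑ q, g q y * ((1 - ψ x) * Lv s₁ (cf η e q) x) =
      (1 - ψ x) * comm s₁ η (fun x => ∑ q, g q y * e q x) x := by
    intro x
    have a1 := Lv_sum isOpen_univ (F := cf η e) (fun q => g q y) (mem_univ x)
      (fun q => (cf_s hG hA q).contDiffOn) s₁
    have a2 : (fun x => ∑ q, g q y * cf η e q x) = fun x => η x * ∑ q, g q y * e q x :=
      funext (cf_sum fun q => g q y)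
    rw [a2, Lf_eq hG (hA.us fun q => g q y) (hA.ul hG.oO fun q => g q y)] at a1
    rw [a1, Finset.mul_sum]
    exact Finset.sum_congr rfl fun q _ => by ring
  simp only [e1]
  have h := h2_bd hG hc (hA.us fun q => g q y)
    (β := (C * vb n r + C) * (S + δ)) (by positivity)
    (fun x hx o => hA.beta hG hS hy ((hG.fab x hx).trans hG.fbP)
      (fun x' hx' => (hfar y hy x' (hG.fab x hx hx')).2) o) D
  refine h.trans (le_of_eq ?_)
  have : √(volume.real P) ^ 2 = volume.real P := Real.sq_sqrt measureReal_nonneg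
  calc (Cc * ((C * vb n r + C) * (S + δ))) ^ 2 * volume.real P =
        (Cc * ((C * vb n r + C) * (S + δ))) ^ 2 * √(volume.real P) ^ 2 := by rw [this]
    _ = _ := by ring

/-- The energy of the cut-off combination. -/
theorem E_bd (hG : Geo s₁ s₂ D Gm O P Fa Fb χ η ψ r C) (hA : Apr s₁ s₂ O P k R δ e g)
    {Cc : ℝ} (hc : ∀ (u : V n → ℝ) (x : V n) (B : ℝ), DifferentiableAt ℝ u x → 0 ≤ B →
      (∀ o : Option (Fin n), |jd o u x| ≤ B) → |(1 - ψ x) * comm s₁ η u x| ≤ Cc * B ∧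
      |η x * u x| ≤ Cc * B ∧ ∀ i, |pd i (fun x => η x * u x) x| ≤ Cc * B)
    {S : ℝ} (hS : 0 ≤ S) (hfar : ∀ x ∈ P, ∀ y ∈ Fb, |k (x, y)| ≤ S ∧ |k (y, x)| ≤ S)
    {y : V n} (hy : y ∈ Fb) :
    IntegrableOn (fun x => (∑ q, g q y * cf η e q x) ^ 2) (D \ Gm) ∧
      (∫ x in D \ Gm, (∑ q, g q y * cf η e q x) ^ 2) ≤
        (Cc * (C * vb n r + C) * √(volume.real P) * (S + δ)) ^ 2 ∧
      (∫ x in D \ Gm, ((∑ q, g q y * cf η e q x) ^ 2 +
        ∑ i, (∑ q, g q y * pd i (cf η e q) x) ^ 2)) ≤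
        (n + 1) * (Cc * (C * vb n r + C) * √(volume.real P) * (S + δ)) ^ 2 := by
  have hC := hG.C0
  have hδ := hA.δ0
  have hb : 0 ≤ vb n r := vb_nonneg r
  obtain ⟨a1, a2, a3⟩ := en_bd hG hc (hA.us fun q => g q y)
    (β := (C * vb n r + C) * (S + δ)) (by positivity)
    (fun x hx o => hA.beta hG hS (hG.fbP hy) (hG.q₅ x hx)
      (fun x' hx' => (hfar x' (hG.q₅ x hx hx') y hy).1) o)
  have e0 : (Cc * ((C * vb n r + C) * (S + δ))) ^ 2 * volume.real P =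
      (Cc * (C * vb n r + C) * √(volume.real P) * (S + δ)) ^ 2 := by
    have : √(volume.real P) ^ 2 = volume.real P := Real.sq_sqrt measureReal_nonneg
    calc (Cc * ((C * vb n r + C) * (S + δ))) ^ 2 * volume.real P =
          (Cc * ((C * vb n r + C) * (S + δ))) ^ 2 * √(volume.real P) ^ 2 := by rw [this]
      _ = _ := by ring
  rw [e0] at a2 a3
  have e1 : ∀ i x, ∑ q, g q y * pd i (cf η e q) x =
      pd i (fun x => η x * ∑ q, g q y * e q x) x := by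
    intro i x
    have a2 : (fun x => ∑ q, g q y * cf η e q x) = fun x => η x * ∑ q, g q y * e q x :=
      funext (cf_sum fun q => g q y)
    rw [← a2, pd_sum (fun q => g q y) (fun q => (cf_s hG hA q).differentiable (by simp) x) i]
  simp only [cf_sum, e1]
  exact ⟨a1, a2, a3⟩

end

/-- The transferred families. -/
structure Tra (s₁ s₂ : MF n) (D Gm P Fb : Set (V n)) (η : V n → ℝ) (A B : ℝ) {d : ℕ}
    (e g w : Fin d → V n → ℝ) (dv : Fin d → Fin n → V n → ℝ) : Prop where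
  ws : ∀ q, ContDiffOn ℝ 1 (w q) D
  wG : ∀ q, ∀ x ∈ Gm ∩ D, w q x = 0
  wl : ∀ q, MemLp (w q) 2 (volume.restrict D)
  wl1 : ∀ q i, MemLp (pd i (w q)) 2 (volume.restrict D)
  dl : ∀ q i, MemLp (dv q i) 2 (volume.restrict (D \ Gm))
  wk : ∀ q, ∀ φ : V n → ℝ, ContDiff ℝ ∞ φ → HasCompactSupport φ → tsupport φ ⊆ D →
    (∫ x in D, ∑ i, ∑ j, s₂ x i j * (pd i (w q) x * pd j φ x)) =
      ∫ x in D \ Gm, ∑ i, ∑ j, (s₁ x i j - s₂ x i j) * (dv q i x * pd j φ x)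
  b1 : ∀ y ∈ P, (∫ x in D \ Gm, ∑ i, (∑ q, g q y * (dv q i x - pd i (cf η e q) x)) ^ 2) ≤ A ^ 2
  b2 : ∀ y ∈ Fb, (∫ x in D, ((∑ q, g q y * w q x) ^ 2 +
    ∑ i, (∑ q, g q y * pd i (w q) x) ^ 2)) ≤ A ^ 2
  b3 : ∀ y ∈ Fb, (∫ x in D \ Gm, ((∑ q, g q y * cf η e q x) ^ 2 +
    ∑ i, (∑ q, g q y * pd i (cf η e q) x) ^ 2)) ≤ (n + 1) * B ^ 2

theorem ex_tra (hG : Geo s₁ s₂ D Gm O P Fa Fb χ η ψ r C)
    (h3 : Stp D Gm s₁ s₂) : ∃ c2 c3 : ℝ, 0 ≤ c2 ∧ 0 ≤ c3 ∧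
    ∀ {k R : VV n → ℝ} {δ : ℝ} {d : ℕ} {e g : Fin d → V n → ℝ}
    (_ : Apr s₁ s₂ O P k R δ e g) {S : ℝ} (_ : 0 ≤ S)
    (_ : ∀ x ∈ P, ∀ y ∈ Fb, |k (x, y)| ≤ S ∧ |k (y, x)| ≤ S),
    ∃ (w : Fin d → V n → ℝ) (dv : Fin d → Fin n → V n → ℝ),
      Tra s₁ s₂ D Gm P Fb η (c2 * (S + δ)) (c3 * (S + δ)) e g w dv := by
  obtain ⟨C₀, hC₀, h3⟩ := h3
  obtain ⟨Cc, hCc, hc⟩ := cut_bd (c := η) (ψ := ψ) hG.sm₁ hG.ηs hG.ηc hG.ψs.continuous
  have hC := hG.C0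
  have hb : 0 ≤ vb n r := vb_nonneg r
  refine ⟨√(C₀ * (n + 2)) * (Cc * (C * vb n r + C) * √(volume.real P)) + 1,
    Cc * (C * vb n r + C) * √(volume.real P), by positivity, by positivity, ?_⟩
  intro k R δ d e g hA S hS hfar
  have hδ := hA.δ0
  have hH2 := fun y hy => H2_bd hG hA hc hS hfar (y := y) hy
  have hE := fun y hy => E_bd hG hA hc hS hfar (y := y) hy
  set c3 : ℝ := Cc * (C * vb n r + C) * √(volume.real P) with hc3
  have hc3n : 0 ≤ c3 := by positivity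
  set T := S + δ with hT
  have hT0 : 0 ≤ T := by positivity
  have hδT : δ ≤ T := by rw [hT]; linarith
  obtain ⟨M, hM0, hM⟩ : ∃ M : ℝ, 0 ≤ M ∧ ∀ y ∈ P, ∑ q, g q y ^ 2 ≤ M := by
    have hcc : ContinuousOn (fun y => ∑ q, g q y ^ 2) P := continuousOn_finsetSum _ fun q _ =>
      ((hA.gs q).continuousOn.mono hG.PO).pow 2
    obtain ⟨M, hM⟩ := hG.cP.exists_bound_of_continuousOn hcc
    exact ⟨|M|, abs_nonneg _, fun y hy => (le_abs_self _).trans ((hM y hy).trans (le_abs_self _))⟩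
  have hε0 : 0 < δ ^ 2 / (M + 1) := by positivity
  have hεM : ∀ y ∈ P, δ ^ 2 / (M + 1) * (∑ q, g q y ^ 2) ≤ δ ^ 2 := by
    intro y hy
    have h := hM y hy
    have h0 : 0 ≤ ∑ q, g q y ^ 2 := Finset.sum_nonneg fun q _ => sq_nonneg _
    rw [div_mul_eq_mul_div, div_le_iff₀ (by positivity)]
    nlinarith [sq_nonneg δ]
  obtain ⟨w, dv, hws, hwG, hwl, hwl1, hdl, hwk, hall⟩ := h3 d (cf η e)
    (fun q x => ψ x * Lv s₁ (cf η e q) x) (fun q x => (1 - ψ x) * Lv s₁ (cf η e q) x)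
    (cf_s hG hA) (cf_c hG) (fun q => (cf_ts q).trans (hG.ηP.trans (hG.PO.trans hG.OD)))
    (fun q => hG.ψs.mul (cf_L hG hA q)) (fun q => (cf_Lc hG hA q).mul_left)
    (fun q => (closure_mono fun y hy => left_ne_zero_of_mul hy).trans hG.ψG)
    (fun q => (contDiff_const.sub hG.ψs).mul (cf_L hG hA q))
    (fun q => (cf_Lc hG hA q).mul_left)
    (fun q => ((closure_mono fun y hy => right_ne_zero_of_mul hy).trans (cf_Lts hG hA q)).trans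
      (hG.ηP.trans (hG.PO.trans hG.OD))) (fun q x _ => by ring) _ hε0
  have hroot : √(C₀ * (n + 2)) ^ 2 = C₀ * (n + 2) := Real.sq_sqrt (by positivity)
  have hc2sq : C₀ * (n + 2) * (c3 * T) ^ 2 + δ ^ 2 ≤ ((√(C₀ * (n + 2)) * c3 + 1) * T) ^ 2 := by
    have e1 : ((√(C₀ * (n + 2)) * c3 + 1) * T) ^ 2 = (√(C₀ * (n + 2)) * (c3 * T) + T) ^ 2 := by
      ring
    have e2 : C₀ * (n + 2) * (c3 * T) ^ 2 = (√(C₀ * (n + 2)) * (c3 * T)) ^ 2 := by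
      rw [mul_pow (√(C₀ * (n + 2))) (c3 * T) 2, hroot]
    rw [e1, e2]
    have e3 : δ ^ 2 ≤ T ^ 2 := pow_le_pow_left₀ hδ.le hδT 2
    have e4 : 0 ≤ √(C₀ * (n + 2)) * (c3 * T) := by positivity
    nlinarith [mul_nonneg e4 hT0]
  refine ⟨w, dv, hws, hwG, hwl, hwl1, hdl, hwk, fun y hy => ?_, fun y hy => ?_,
    fun y hy => (hE y hy).2.2⟩
  · refine ((hall fun q => g q y).1).trans (le_trans ?_ hc2sq)
    have e1 := mul_le_mul_of_nonneg_left (hH2 y hy) hC₀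
    have e2 := hεM y hy
    have e3 : C₀ * (c3 * T) ^ 2 ≤ C₀ * (n + 2) * (c3 * T) ^ 2 := by
      have : 0 ≤ C₀ * (c3 * T) ^ 2 := by positivity
      have : (0 : ℝ) ≤ n := by positivity
      nlinarith
    linarith
  · refine ((hall fun q => g q y).2).trans (le_trans ?_ hc2sq)
    have e1 := mul_le_mul_of_nonneg_left (add_le_add (hE y hy).2.2 (hH2 y (hG.fbP hy))) hC₀
    have e2 := hεM y (hG.fbP hy)
    have e3 : C₀ * ((n + 1) * (c3 * T) ^ 2 + (c3 * T) ^ 2) = C₀ * (n + 2) * (c3 * T) ^ 2 := by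
      ring
    linarith

end Vale.Agent.P088.HY.T3
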